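import Mathlib

/-!
# Finitely many tiling equations in `ι → ℤ` amount to one tile

A box is coloured pseudo-randomly by the indices of the equations (all translates
by vectors with coordinates in `{-1,0,1}` included); the scaled equations glue to
a single tile each of whose tilings lives in one coset of the scaled lattice.
-/

namespace Vale.Agent.P043

/-- `F` tiles with translation set `A`: every element is uniquely `a + f`. -/
def Tiles {G : Type*} [AddCommGroup G] (A : Set G) (F : Finset G) : Prop :=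
  ∀ g, ∃! f, f ∈ F ∧ g - f ∈ A

/-- A family indexed by `ι` tiles with translation set `A`. -/
def TilesBy {G ι : Type*} [AddCommGroup G] (A : Set G) (e : ι → G) : Prop :=
  ∀ g, ∃! s, g - e s ∈ A

/-- Periodicity with a common period in all coordinate directions. -/
def BoxPeriodic {ι : Type*} [DecidableEq ι] (A : Set (ι → ℤ)) : Prop :=
  ∃ P : ℕ, 0 < P ∧ ∀ i a, a + Pi.single i (P : ℤ) ∈ A ↔ a ∈ A

/-- A colouring of an interval realising every colour pair at every small lag. -/
lemma exists_pair_universal (X : Type*) [Fintype X] [Nonempty X] :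
    ∃ L : ℕ, 0 < L ∧ ∃ φ : ℕ → X, ∀ w, 1 ≤ w → w ≤ L → ∀ a b : X,
      ∃ t, t + w < 2 * L ∧ φ t = a ∧ φ (t + w) = b := by
  classical
  obtain ⟨n, hn0, hn⟩ : ∃ n : ℕ, 0 < n ∧
      2 * n * Fintype.card X ^ 2 * (Fintype.card X ^ 2 - 1) ^ n
        < (Fintype.card X ^ 2) ^ n := by
    set m := Fintype.card X ^ 2 with hm
    have hm1 : 1 ≤ m := Nat.one_le_pow _ _ Fintype.card_pos
    have hr0 : (0 : ℝ) ≤ ((m - 1 : ℕ) : ℝ) / m := by positivity
    have hr1 : ((m - 1 : ℕ) : ℝ) / m < 1 := by
      rw [div_lt_one (by exact_mod_cast hm1)]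
      exact_mod_cast Nat.sub_lt hm1 Nat.one_pos
    have h := (tendsto_self_mul_const_pow_of_lt_one hr0 hr1).eventually
      (gt_mem_nhds (show (0 : ℝ) < 1 / (2 * m) by positivity))
    obtain ⟨n, hn, hn0⟩ := (h.and (Filter.eventually_gt_atTop 0)).exists
    refine ⟨n, hn0, ?_⟩
    have hmp : (0 : ℝ) < (m : ℝ) ^ n := by positivity
    rw [div_pow, mul_div_assoc', div_lt_iff₀ hmp, div_mul_eq_mul_div,
      lt_div_iff₀ (by positivity)] at hn
    have : ((2 * n * m * (m - 1) ^ n : ℕ) : ℝ) < ((m ^ n : ℕ) : ℝ) := by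
      push_cast
      linarith
    exact_mod_cast this
  refine ⟨2 * n, by omega, ?_⟩
  let K := 4 * n
  let pos : ℕ → Fin n → ℕ := fun w k =>
    if w ≤ n then 2 * w * (k.1 / w) + k.1 % w else k.1
  have pos_lt : ∀ w, 1 ≤ w → w ≤ 2 * n → ∀ k, pos w k + w < K := by
    intro w hw hwL k
    have := k.2
    simp only [pos, K]
    split_ifs with h
    · have h1 := Nat.div_add_mod k.1 w
      have h2 : 2 * w * (k.1 / w) + k.1 % w ≤ 2 * k.1 := by
        rw [mul_assoc]
        omega
      omega
    · omega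
  have pos_inj : ∀ w, 1 ≤ w → ∀ k k', pos w k = pos w k' → k = k' := by
    intro w hw k k' h
    apply Fin.ext
    simp only [pos] at h
    split_ifs at h with hle
    · have hk := Nat.mod_lt k.1 (show w > 0 by omega)
      have hk' := Nat.mod_lt k'.1 (show w > 0 by omega)
      have hd : k.1 / w = k'.1 / w := by
        rcases lt_trichotomy (k.1 / w) (k'.1 / w) with hlt | heq | hlt
        · have h1 := Nat.mul_le_mul_left (2 * w) (Nat.succ_le_of_lt hlt)
          rw [Nat.succ_eq_add_one, mul_add, mul_one] at h1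
          omega
        · exact heq
        · have h1 := Nat.mul_le_mul_left (2 * w) (Nat.succ_le_of_lt hlt)
          rw [Nat.succ_eq_add_one, mul_add, mul_one] at h1
          omega
      have h1 := Nat.div_add_mod k.1 w
      have h2 := Nat.div_add_mod k'.1 w
      rw [hd] at h h1
      omega
    · exact h
  have pos_ne : ∀ w, 1 ≤ w → ∀ k k', pos w k + w ≠ pos w k' := by
    intro w hw k k' h
    simp only [pos] at h
    split_ifs at h with hle
    · have hk := Nat.mod_lt k.1 (show w > 0 by omega)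
      have hk' := Nat.mod_lt k'.1 (show w > 0 by omega)
      rcases le_or_gt (k'.1 / w) (k.1 / w) with hd | hd
      · have h1 := Nat.mul_le_mul_left (2 * w) hd
        omega
      · have h1 := Nat.mul_le_mul_left (2 * w) (Nat.succ_le_of_lt hd)
        rw [Nat.succ_eq_add_one, mul_add, mul_one] at h1
        omega
    · have := k'.2
      omega
  let Bad : ℕ × X × X → Finset (Fin K → X) := fun q =>
    if hq : 1 ≤ q.1 ∧ q.1 ≤ 2 * n then
      Finset.univ.filter fun φ => ∀ k : Fin n,
        (φ ⟨pos q.1 k, by have := pos_lt q.1 hq.1 hq.2 k; omega⟩,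
         φ ⟨pos q.1 k + q.1, pos_lt q.1 hq.1 hq.2 k⟩) ≠ q.2
    else ∅
  have hBad : ∀ q, (Bad q).card
      ≤ (Fintype.card X ^ 2 - 1) ^ n * Fintype.card X ^ (2 * n) := by
    intro q
    by_cases hq : 1 ≤ q.1 ∧ q.1 ≤ 2 * n
    · let j : Fin n ⊕ Fin n → Fin K := Sum.elim
        (fun k => ⟨pos q.1 k, by have := pos_lt q.1 hq.1 hq.2 k; omega⟩)
        (fun k => ⟨pos q.1 k + q.1, pos_lt q.1 hq.1 hq.2 k⟩)
      have hj : Function.Injective j := by
        rintro (k | k) (k' | k') h <;>
          simp only [j, Sum.elim_inl, Sum.elim_inr, Fin.mk.injEq] at h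
        · rw [pos_inj q.1 hq.1 k k' h]
        · exact absurd h.symm (pos_ne q.1 hq.1 k' k)
        · exact absurd h (pos_ne q.1 hq.1 k k')
        · rw [pos_inj q.1 hq.1 k k' (by omega)]
      let T := (Finset.univ.image j)ᶜ
      let f : {φ // φ ∈ Bad q} → (Fin n → {p : X × X // p ≠ q.2}) × (T → X) :=
        fun φ => (fun k => ⟨(φ.1 (j (Sum.inl k)), φ.1 (j (Sum.inr k))), by
          have := φ.2
          simp only [Bad, dif_pos hq, Finset.mem_filter] at this
          exact this.2 k⟩, fun i => φ.1 i)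
      have hf : Function.Injective f := by
        intro φ ψ h
        apply Subtype.ext
        funext i
        by_cases hi : i ∈ T
        · exact congrFun (congrArg Prod.snd h) ⟨i, hi⟩
        · simp only [T, Finset.mem_compl, not_not, Finset.mem_image, Finset.mem_univ,
            true_and] at hi
          obtain ⟨k | k, rfl⟩ := hi
          · exact congrArg (fun p => p.1.1) (congrFun (congrArg Prod.fst h) k)
          · exact congrArg (fun p => p.1.2) (congrFun (congrArg Prod.fst h) k)
      have := Fintype.card_le_of_injective f hf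
      have hT : T.card = 2 * n := by
        simp only [T, Finset.card_compl, Finset.card_image_of_injective _ hj, K,
          Finset.card_univ, Fintype.card_sum, Fintype.card_fin]
        omega
      rw [Fintype.card_coe, Fintype.card_prod, Fintype.card_fun, Fintype.card_fun,
        Fintype.card_coe, hT, Fintype.card_subtype_compl, Fintype.card_subtype_eq,
        Fintype.card_prod, Fintype.card_fin, ← sq] at this
      exact this
    · simp [Bad, hq]
  let Q : Finset (ℕ × X × X) := Finset.Icc 1 (2 * n) ×ˢ Finset.univ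
  have hlt : (Q.biUnion Bad).card < (Finset.univ : Finset (Fin K → X)).card := by
    refine lt_of_le_of_lt (Finset.card_biUnion_le_card_mul _ _ _ fun q _ => hBad q) ?_
    simp only [Q, Finset.card_product, Nat.card_Icc, Finset.card_univ, Fintype.card_prod,
      Fintype.card_fun, Fintype.card_fin, add_tsub_cancel_right, ← sq]
    calc 2 * n * Fintype.card X ^ 2 *
          ((Fintype.card X ^ 2 - 1) ^ n * Fintype.card X ^ (2 * n))
        = (2 * n * Fintype.card X ^ 2 * (Fintype.card X ^ 2 - 1) ^ n)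
          * Fintype.card X ^ (2 * n) := by ring
      _ < (Fintype.card X ^ 2) ^ n * Fintype.card X ^ (2 * n) :=
          Nat.mul_lt_mul_of_pos_right hn (pow_pos Fintype.card_pos _)
      _ = Fintype.card X ^ K := by rw [← pow_mul, ← pow_add]; congr 1; omega
  obtain ⟨φ, -, hφ⟩ := Finset.exists_mem_notMem_of_card_lt_card hlt
  refine ⟨fun t => if h : t < K then φ ⟨t, h⟩ else Classical.arbitrary X,
    fun w hw hwL a b => ?_⟩
  by_contra hne
  apply hφ
  refine Finset.mem_biUnion.2 ⟨(w, a, b), by simp [Q, hw, hwL], ?_⟩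
  simp only [Bad, dif_pos (And.intro hw hwL), Finset.mem_filter, Finset.mem_univ, true_and]
  intro k hk
  simp only [Prod.mk.injEq] at hk
  have hlt' := pos_lt w hw hwL k
  refine hne ⟨pos w k, by simp only [K] at hlt'; omega, ?_, ?_⟩
  · simp only [dif_pos (show pos w k < K by omega)]; exact hk.1
  · simp only [dif_pos hlt']; exact hk.2

variable {ι : Type*} [Fintype ι] [DecidableEq ι] [Nonempty ι]

/-- A colouring of a box in `ι → ℤ` realising every colour pair at every small lag. -/
lemma exists_box_colouring (X : Type*) [Fintype X] [Nonempty X] :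
    ∃ L : ℕ, 0 < L ∧ ∃ χ : (ι → ℤ) → X, ∀ w : ι → ℤ, w ≠ 0 → (∀ l, |w l| ≤ L) →
      ∀ a b : X, ∃ r : ι → ℤ, (∀ l, 0 ≤ r l ∧ r l < 2 * L) ∧
        (∀ l, 0 ≤ r l - w l ∧ r l - w l < 2 * L) ∧ χ r = a ∧ χ (r - w) = b := by
  classical
  have hM : Fintype.card X ≠ 0 := Fintype.card_ne_zero
  haveI : NeZero (Fintype.card X) := ⟨hM⟩
  let eX : X ≃ ZMod (Fintype.card X) := Fintype.equivOfCardEq (ZMod.card _).symm
  obtain ⟨L, hL, φ, hφ⟩ := exists_pair_universal (ZMod (Fintype.card X))
  refine ⟨L, hL, fun r => eX.symm (∑ l, φ (r l).toNat), fun w hw hwL a b => ?_⟩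
  obtain ⟨l, hl⟩ := Function.ne_iff.1 hw
  let r₀ : ι → ℤ := fun l' => max (w l') 0
  have hupd : ∀ t : ℤ, ∀ v : ι → ℤ, ∑ l', φ (Function.update v l t l').toNat
      = φ t.toNat + ∑ l' ∈ Finset.univ.erase l, φ (v l').toNat := by
    intro t v
    rw [← Finset.add_sum_erase _ _ (Finset.mem_univ l), Function.update_self]
    congr 1
    exact Finset.sum_congr rfl fun l' h => by
      rw [Function.update_of_ne (Finset.ne_of_mem_erase h)]
  set c₁ := ∑ l' ∈ Finset.univ.erase l, φ (r₀ l').toNat
  set c₂ := ∑ l' ∈ Finset.univ.erase l, φ (r₀ l' - w l').toNat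
  obtain ⟨t, ht0, htL, ht0', htL', hta, htb⟩ : ∃ t : ℤ, 0 ≤ t ∧ t < 2 * L ∧ 0 ≤ t - w l ∧
      t - w l < 2 * L ∧ φ t.toNat = eX a - c₁ ∧ φ (t - w l).toNat = eX b - c₂ := by
    have hwl := abs_le.1 (hwL l)
    simp only [Pi.zero_apply] at hl
    rcases lt_or_gt_of_ne hl with hneg | hpos
    · obtain ⟨t, ht, h1, h2⟩ := hφ (-w l).toNat (by omega) (by omega) (eX a - c₁) (eX b - c₂)
      refine ⟨t, by omega, by omega, by omega, by omega, by simpa using h1, ?_⟩
      rw [← h2]; congr 1; omega
    · obtain ⟨t, ht, h1, h2⟩ := hφ (w l).toNat (by omega) (by omega) (eX b - c₂) (eX a - c₁)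
      refine ⟨t + w l, by omega, by omega, by omega, by omega, ?_, ?_⟩
      · rw [← h2]; congr 1; omega
      · rw [← h1]; congr 1; omega
  refine ⟨Function.update r₀ l t, fun l' => ?_, fun l' => ?_, ?_, ?_⟩
  · rcases eq_or_ne l' l with rfl | h
    · rw [Function.update_self]; exact ⟨ht0, htL⟩
    · have := abs_le.1 (hwL l')
      rw [Function.update_of_ne h]; simp only [r₀]; omega
  · rcases eq_or_ne l' l with rfl | h
    · rw [Function.update_self]; exact ⟨ht0', htL'⟩
    · have := abs_le.1 (hwL l')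
      rw [Function.update_of_ne h]; simp only [r₀]; omega
  · rw [Equiv.symm_apply_eq, hupd, hta]; abel
  · have : Function.update r₀ l t - w = Function.update (r₀ - w) l (t - w l) := by
      funext l'
      rcases eq_or_ne l' l with rfl | h
      · simp
      · simp [h]
    rw [Equiv.symm_apply_eq, this, hupd, htb]
    simp only [Pi.sub_apply]
    abel

/-- Finitely many equations are equivalent to one tile, as far as periodicity goes. -/
theorem exists_single_tile {κ : Type*} [Fintype κ] [Nonempty κ]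
    (Fs : κ → Finset (ι → ℤ)) (hne : ∀ k, (Fs k).Nonempty) :
    ∃ F : Finset (ι → ℤ), F.Nonempty ∧
      ((∃ U, ∀ k, Tiles U (Fs k)) → ∃ A, Tiles A F) ∧
      (∀ A, Tiles A F → BoxPeriodic A → ∃ U, (∀ k, Tiles U (Fs k)) ∧ BoxPeriodic U) := by
  classical
  let E : Finset (ι → ℤ) := Fintype.piFinset fun _ => Finset.Icc (-1 : ℤ) 1
  have hE : ∀ e, e ∈ E ↔ ∀ l, -1 ≤ e l ∧ e l ≤ 1 := by simp [E]
  haveI : Nonempty E := ⟨⟨0, (hE 0).2 (by simp)⟩⟩
  obtain ⟨L, hL, χ, hχ⟩ := exists_box_colouring (ι := ι) (κ × E)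
  let K : ℤ := 2 * L
  let box : Finset (ι → ℤ) := Fintype.piFinset fun _ => Finset.Ico (0 : ℤ) K
  have hbox : ∀ r, r ∈ box ↔ ∀ l, 0 ≤ r l ∧ r l < K := by simp [box]
  let F' : κ × E → Finset (ι → ℤ) := fun q => (Fs q.1).image (· + q.2.1)
  let F := box.biUnion fun r => (F' (χ r)).image fun f => K • f + r
  have hF : ∀ z, z ∈ F ↔ ∃ r ∈ box, ∃ f ∈ F' (χ r), K • f + r = z := by
    simp [F, Finset.mem_biUnion]
  have mkF : ∀ r ∈ box, ∀ q, χ r = q → ∀ f ∈ F' q, K • f + r ∈ F := by
    intro r hr q hq f hf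
    exact (hF _).2 ⟨r, hr, f, hq ▸ hf, rfl⟩
  -- uniqueness of the decomposition `K • u + r`
  have huniq : ∀ u u' r r', r ∈ box → r' ∈ box → K • u + r = K • u' + r' →
      u = u' ∧ r = r' := by
    intro u u' r r' hr hr' h
    rw [hbox] at hr hr'
    have hl : ∀ l, u l = u' l := by
      intro l
      have h0 := congrFun h l
      simp only [Pi.add_apply, Pi.smul_apply, smul_eq_mul] at h0
      have := hr l; have := hr' l
      rcases lt_trichotomy (u l) (u' l) with hlt | heq | hlt
      · nlinarith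
      · exact heq
      · nlinarith
    exact ⟨funext hl, by rw [funext hl] at h; exact add_left_cancel h⟩
  have hmem' : ∀ k f (e : E), f ∈ Fs k → f + e.1 ∈ F' (k, e) := by
    intro k f e hf
    exact Finset.mem_image.2 ⟨f, hf, rfl⟩
  refine ⟨F, ?_, ?_, ?_⟩
  · obtain ⟨f, hf⟩ := hne (χ 0).1
    have h0 : (0 : ι → ℤ) ∈ box := (hbox 0).2 fun l => ⟨le_rfl, by simp [K]; omega⟩
    exact ⟨_, mkF 0 h0 _ rfl _ (hmem' _ f (χ 0).2 hf)⟩
  · rintro ⟨U, hU⟩
    refine ⟨(fun u => K • u) '' U, fun g => ?_⟩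
    let u : ι → ℤ := fun l => g l / K
    let r : ι → ℤ := fun l => g l % K
    have hKpos : 0 < K := by simp [K]; omega
    have hr : r ∈ box :=
      (hbox r).2 fun l => ⟨Int.emod_nonneg _ hKpos.ne', Int.emod_lt_of_pos _ hKpos⟩
    have hg : g = K • u + r := funext fun l => (Int.mul_ediv_add_emod (g l) K).symm
    obtain ⟨f, ⟨hf, hfU⟩, hfu⟩ := hU (χ r).1 (u - (χ r).2.1)
    refine ⟨K • (f + (χ r).2.1) + r, ⟨mkF r hr _ rfl _ (hmem' _ _ _ hf), ?_⟩, ?_⟩
    · refine ⟨u - (χ r).2.1 - f, hfU, ?_⟩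
      simp only
      rw [hg, smul_sub, smul_sub, smul_add]
      abel
    · rintro z ⟨hz, v, hv, hzv⟩
      obtain ⟨r', hr', f', hf', rfl⟩ := (hF z).1 hz
      simp only [F', Finset.mem_image] at hf'
      obtain ⟨f₁, hf₁, rfl⟩ := hf'
      simp only at hzv
      have h1 : K • u + r = K • (v + (f₁ + (χ r').2.1)) + r' := by
        rw [← hg, smul_add]
        linear_combination (norm := abel) -hzv
      obtain ⟨hu', hrr⟩ := huniq _ _ _ _ hr hr' h1
      subst hrr
      have := hfu f₁ ⟨hf₁, by
        have : u - (χ r).2.1 - f₁ = v := by rw [hu']; abel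
        rw [this]; exact hv⟩
      rw [this]
  · intro A hA hper
    -- two tiles overlap unless they are congruent mod `K`
    have key : ∀ a ∈ A, ∀ a' ∈ A, ∀ q q' f f', f ∈ F' q → f' ∈ F' q' → ∀ w : ι → ℤ,
        (∀ l, |w l| ≤ L) → a' - a = K • (f - f') + w → w = 0 := by
      intro a ha a' ha' q q' f f' hf hf' w hwL hd
      by_contra hw
      obtain ⟨r, hr, hr', hq, hq'⟩ := hχ w hw hwL q q'
      have hr1 : r ∈ box := (hbox r).2 hr
      have hr2 : r - w ∈ box := (hbox _).2 hr'
      have h1 := mkF r hr1 q hq f hf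
      have h2 := mkF (r - w) hr2 q' hq' f' hf'
      have := (hA (a + (K • f + r))).unique ⟨h1, by simpa using ha⟩ ⟨h2, by
        convert ha' using 1
        rw [smul_sub] at hd
        linear_combination (norm := abel) -hd⟩
      obtain ⟨-, hrw⟩ := huniq _ _ _ _ hr1 hr2 this
      exact hw (by simpa using hrw.symm)
    obtain ⟨a₀, ha₀⟩ : ∃ a, a ∈ A := by
      obtain ⟨f, ⟨-, h⟩, -⟩ := hA 0
      exact ⟨_, h⟩
    let U : Set (ι → ℤ) := {u | a₀ + K • u ∈ A}
    have hK0 : (0 : ι → ℤ) ∈ box := (hbox 0).2 fun l => ⟨le_rfl, by simp [K]; omega⟩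
    have hR : ∀ q, ∃ r ∈ box, χ r = q := by
      intro q
      obtain ⟨r, hr, -, hq, -⟩ := hχ (Pi.single (Classical.arbitrary ι) 1)
        (by simp) (fun l => by
          rcases eq_or_ne l (Classical.arbitrary ι) with rfl | h
          · simp; omega
          · simp [h]) q q
      exact ⟨r, (hbox r).2 hr, hq⟩
    have step : ∀ u ∈ U, ∀ k, ∀ f ∈ Fs k, ∀ q, ∃ f' ∈ F' q, u + f - f' ∈ U := by
      intro u hu k f hf q
      obtain ⟨r', hr', hq⟩ := hR q
      obtain ⟨z, ⟨hz, hzA⟩, -⟩ := hA (a₀ + K • (u + f) + r')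
      obtain ⟨r, hr, f', hf', rfl⟩ := (hF z).1 hz
      let e : ι → ℤ := fun l =>
        if (L : ℤ) < r' l - r l then 1 else if r' l - r l < -L then -1 else 0
      have heE : e ∈ E := (hE e).2 fun l => by simp only [e]; split_ifs <;> omega
      have hb := (hbox r).1 hr
      have hb' := (hbox r').1 hr'
      have hw : ∀ l, |(r' - r - K • e) l| ≤ L := by
        intro l
        have := hb l; have := hb' l
        simp only [Pi.sub_apply, Pi.smul_apply, smul_eq_mul, e, K] at *
        rw [abs_le]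
        split_ifs <;> omega
      have h0 := key _ hu _ hzA _ _ _ _ (hmem' k f ⟨e, heE⟩ hf) hf' _ hw (by
        rw [smul_sub, smul_add, smul_add]; abel)
      have h1 : K • e + r = K • (0 : ι → ℤ) + r' := by
        rw [smul_zero, zero_add]
        linear_combination (norm := abel) -h0
      obtain ⟨-, hrr⟩ := huniq _ _ _ _ hr hr' h1
      subst hrr
      refine ⟨f', hq ▸ hf', ?_⟩
      show a₀ + K • (u + f - f') ∈ A
      convert hzA using 1
      rw [smul_sub]; abel
    have full : ∀ γ q, ∃ f' ∈ F' q, γ - f' ∈ U := by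
      have move : ∀ γ : ι → ℤ, (∀ q, ∃ f' ∈ F' q, γ - f' ∈ U) → ∀ e ∈ E,
          ∀ q, ∃ f' ∈ F' q, γ + e - f' ∈ U := by
        intro γ hγ e he q
        obtain ⟨k⟩ := (inferInstance : Nonempty κ)
        have hne' : -e ∈ E := (hE _).2 fun l => by
          have := (hE e).1 he l; simp only [Pi.neg_apply]; omega
        obtain ⟨f', hf', hu⟩ := hγ (k, ⟨-e, hne'⟩)
        simp only [F', Finset.mem_image] at hf'
        obtain ⟨f, hf, rfl⟩ := hf'
        obtain ⟨g, hg, hgU⟩ := step _ hu k f hf q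
        refine ⟨g, hg, ?_⟩
        convert hgU using 1
        abel
      obtain ⟨k⟩ := (inferInstance : Nonempty κ)
      obtain ⟨f₀, hf₀⟩ := hne k
      have hu0 : (0 : ι → ℤ) ∈ U := by simpa [U] using ha₀
      have base : ∀ q, ∃ f' ∈ F' q, f₀ - f' ∈ U := fun q => by
        simpa using step 0 hu0 k f₀ hf₀ q
      suffices ∀ (n : ℕ) (γ : ι → ℤ), (∀ l, |γ l| ≤ n) → ∀ q, ∃ f' ∈ F' q, f₀ + γ - f' ∈ U by
        intro γ q
        have h := this (∑ l, ((γ - f₀) l).natAbs) (γ - f₀) (fun l => by
          have := Finset.single_le_sum (f := fun l => ((γ - f₀) l).natAbs)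
            (fun i _ => Nat.zero_le _) (Finset.mem_univ l)
          rw [Int.abs_eq_natAbs]
          exact_mod_cast this) q
        simpa using h
      intro n
      induction n with
      | zero =>
        intro γ hγ q
        have hγ0 : γ = 0 := funext fun l => by
          have := hγ l
          simpa using this
        simpa [hγ0] using base q
      | succ n ih =>
        intro γ hγ q
        let e : ι → ℤ := fun l => max (-1) (min 1 (γ l))
        have h1 := move (f₀ + (γ - e)) (ih (γ - e) fun l => by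
          have := abs_le.1 (hγ l)
          simp only [Pi.sub_apply, e, abs_le]
          omega) e ((hE e).2 fun l => by simp only [e]; omega) q
        rwa [add_assoc, sub_add_cancel] at h1
    refine ⟨U, fun k γ => ?_, ?_⟩
    · have h0E : (0 : ι → ℤ) ∈ E := (hE 0).2 (by simp)
      obtain ⟨f', hf', hu⟩ := full γ (k, ⟨0, h0E⟩)
      simp only [F', Finset.mem_image, add_zero, exists_eq_right] at hf'
      refine ⟨f', ⟨hf', hu⟩, fun g ⟨hg, hgu⟩ => ?_⟩
      obtain ⟨r, hr, hq⟩ := hR (k, ⟨0, h0E⟩)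
      have hm : ∀ x ∈ Fs k, K • x + r ∈ F := fun x hx => by
        have := mkF r hr _ hq _ (hmem' k x ⟨0, h0E⟩ hx)
        simpa using this
      have hA' : ∀ x, γ - x ∈ U → a₀ + K • γ + r - (K • x + r) ∈ A := fun x hx => by
        simp only [U, Set.mem_setOf_eq, smul_sub] at hx
        convert hx using 1
        abel
      have := (hA (a₀ + K • γ + r)).unique ⟨hm g hg, hA' g hgu⟩ ⟨hm f' hf', hA' f' hu⟩
      exact (huniq _ _ _ _ hr hr this).1
    · obtain ⟨P, hP, hper⟩ := hper
      refine ⟨P, hP, fun i u => ?_⟩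
      have hmul : ∀ (n : ℕ) a, a + n • Pi.single i (P : ℤ) ∈ A ↔ a ∈ A := by
        intro n
        induction n with
        | zero => simp
        | succ n ih => intro a; rw [succ_nsmul, ← add_assoc, hper, ih]
      simp only [U, Set.mem_setOf_eq, smul_add, ← add_assoc]
      rw [← hmul (2 * L) (a₀ + K • u), ← natCast_zsmul]
      simp [K]

end Vale.Agent.P043
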