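import Vale.Agent.P043.Lift

/-!
# All dimensions from four on
-/

namespace Vale.Agent.P043

/-- Padding with zeros. -/
def pad (m : ℕ) (x : Fin 4 → ℤ) : Fin (4 + m) → ℤ := Fin.append x 0

/-- In every dimension at least four some tile admits no periodic tiling. -/
theorem periodic_tiling_fails (d : ℕ) (hd : 4 ≤ d) :
    ∃ F : Finset (Fin d → ℤ), F.Nonempty ∧
      (∃ A : Set (Fin d → ℤ), ∀ g, ∃! f, f ∈ F ∧ g - f ∈ A) ∧
      ¬∃ A : Set (Fin d → ℤ), (∀ g, ∃! f, f ∈ F ∧ g - f ∈ A) ∧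
        ∃ H : AddSubgroup (Fin d → ℤ), H.FiniteIndex ∧ ∀ h ∈ H, ∀ a, a + h ∈ A ↔ a ∈ A := by
  classical
  obtain ⟨m, rfl⟩ := Nat.exists_eq_add_of_le hd
  obtain ⟨F₀, hne, ⟨A₀, hA₀⟩, hno⟩ := exists_aperiodic_tile_four
  let q : (Fin (4 + m) → ℤ) → Fin 4 → ℤ := fun x i => x (Fin.castAdd m i)
  have hq : ∀ x, q (pad m x) = x := fun x => by funext i; simp [q, pad]
  have hqsub : ∀ x y, q (x - y) = q x - q y := fun x y => by funext i; simp [q]
  have hpsub : ∀ x y, pad m x - pad m y = pad m (x - y) := fun x y => by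
    funext i; induction i using Fin.addCases <;> simp [pad]
  have hpadd : ∀ x y, pad m x + pad m y = pad m (x + y) := fun x y => by
    funext i; induction i using Fin.addCases <;> simp [pad]
  refine ⟨F₀.image (pad m), hne.image _, ⟨q ⁻¹' A₀, fun g => ?_⟩, ?_⟩
  · obtain ⟨f, ⟨hf, hfA⟩, hu⟩ := hA₀ (q g)
    refine ⟨pad m f, ⟨Finset.mem_image_of_mem _ hf, ?_⟩, ?_⟩
    · show q (g - pad m f) ∈ A₀
      rwa [hqsub, hq]
    · rintro x ⟨hx, hxA⟩
      obtain ⟨f', hf', rfl⟩ := Finset.mem_image.1 hx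
      have : q (g - pad m f') ∈ A₀ := hxA
      rw [hqsub, hq] at this
      rw [hu f' ⟨hf', this⟩]
  · rintro ⟨A, hA, H, hH, hper⟩
    refine hno (pad m ⁻¹' A) (fun g => ?_) ⟨H.index, Nat.pos_of_ne_zero hH.index_ne_zero,
      fun i a => ?_⟩
    · obtain ⟨x, ⟨hx, hxA⟩, hu⟩ := hA (pad m g)
      obtain ⟨f, hf, rfl⟩ := Finset.mem_image.1 hx
      refine ⟨f, ⟨hf, by show pad m (g - f) ∈ A; rwa [← hpsub]⟩, fun f' ⟨hf', hf'A⟩ => ?_⟩
      have := hu (pad m f') ⟨Finset.mem_image_of_mem _ hf', by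
        rw [hpsub]; exact hf'A⟩
      simpa [hq] using congrArg q this
    · show pad m (a + Pi.single i ((H.index : ℕ) : ℤ)) ∈ A ↔ pad m a ∈ A
      rw [← hpadd]
      refine hper _ ?_ _
      have h := H.nsmul_index_mem (pad m (Pi.single i 1))
      convert h using 1
      funext j
      induction j using Fin.addCases with
      | left j => rcases eq_or_ne j i with rfl | hne <;> simp [pad, *]
      | right j => simp [pad]

end Vale.Agent.P043
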