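import Vale.Agent.P043.Combine

/-!
# From the integer lattice to Euclidean space

A unit cube with `d` small cavities, each cavity's content moved one step along its axis,
tiles `ℝ^d` by the integer lattice only. Gluing one copy on every cell of an aperiodic
tile of `ℤ^d` gives an aperiodic measurable tile of `ℝ^d`.
-/

namespace Vale.Agent.P043.Euclid

open MeasureTheory Set Function

variable {d : ℕ}

/-- An integer vector as a real vector. -/
def ofInt (n : Fin d → ℤ) : Fin d → ℝ := fun i => (n i : ℝ)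

lemma ofInt_add (m n : Fin d → ℤ) : ofInt (m + n) = ofInt m + ofInt n := by
  funext i; simp [ofInt]

lemma ofInt_sub (m n : Fin d → ℤ) : ofInt (m - n) = ofInt m - ofInt n := by
  funext i; simp [ofInt]

lemma ofInt_injective : Injective (ofInt (d := d)) := fun m n h =>
  funext fun i => by simpa [ofInt] using congrFun h i

/-- The centre of cavity `i`. -/
noncomputable def centre (i k : Fin d) : ℝ := if k = i then 1 / 4 else 1 / 2

/-- Cavity `i`. -/
def cavity (i : Fin d) : Set (Fin d → ℝ) := {y | ∀ k, |y k - centre i k| ≤ 1 / 16}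

/-- The open cube with all cavities removed. -/
def body (d : ℕ) : Set (Fin d → ℝ) :=
  {y | (∀ k, 0 ≤ y k ∧ y k < 1) ∧ ∀ i, y ∉ cavity i}

/-- The rigid tile. -/
def jagged (d : ℕ) : Set (Fin d → ℝ) :=
  body d ∪ ⋃ i, {y | y - Pi.single i 1 ∈ cavity i}

lemma cavity_bounds {i : Fin d} {y : Fin d → ℝ} (h : y ∈ cavity i) (k : Fin d) :
    3 / 16 ≤ y k ∧ y k ≤ 9 / 16 := by
  have := abs_le.1 (h k)
  unfold centre at this
  split_ifs at this <;> constructor <;> linarith

lemma cavity_eq {i j : Fin d} {y : Fin d → ℝ} (hi : y ∈ cavity i) (hj : y ∈ cavity j) :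
    i = j := by
  by_contra h
  have h1 := abs_le.1 (hi i)
  have h2 := abs_le.1 (hj i)
  simp only [centre, if_true, if_neg h] at h1 h2
  linarith

lemma mem_jagged_cases {y : Fin d → ℝ} (h : y ∈ jagged d) :
    y ∈ body d ∨ ∃ i, y - Pi.single i 1 ∈ cavity i := by
  rcases h with h | h
  · exact Or.inl h
  · exact Or.inr (Set.mem_iUnion.1 h)

/-- The tile is a fundamental domain of the integer lattice. -/
lemma existsUnique_jagged (x : Fin d → ℝ) : ∃! n, x - ofInt n ∈ jagged d := by
  classical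
  set f : Fin d → ℤ := fun k => ⌊x k⌋ with hf
  set y := x - ofInt f with hy
  have hyb : ∀ k, 0 ≤ y k ∧ y k < 1 := fun k => by
    have h1 := Int.floor_le (x k)
    have h2 := Int.lt_floor_add_one (x k)
    simp only [hy, hf, Pi.sub_apply, ofInt]
    constructor <;> linarith
  have key : ∀ n, x - ofInt n ∈ jagged d →
      (n = f ∧ ∀ i, y ∉ cavity i) ∨ ∃ i, y ∈ cavity i ∧ n = f - Pi.single i 1 := by
    intro n hn
    rcases mem_jagged_cases hn with ⟨hb, hc⟩ | ⟨i, hi⟩
    · have e : n = f := funext fun k => by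
        have := hb k
        simp only [Pi.sub_apply, ofInt] at this
        exact (Int.floor_eq_iff.2 ⟨by linarith [this.1], by linarith [this.2]⟩).symm
      refine Or.inl ⟨e, fun i => ?_⟩
      subst e
      exact hc i
    · have e : n = f - Pi.single i 1 := funext fun k => by
        have hk := cavity_bounds hi k
        by_cases hki : k = i
        · subst hki
          simp only [Pi.sub_apply, Pi.single_eq_same, ofInt, hf] at hk ⊢
          have : ⌊x k⌋ = n k + 1 := Int.floor_eq_iff.2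
            ⟨by push_cast; linarith [hk.1], by push_cast; linarith [hk.2]⟩
          omega
        · simp only [Pi.sub_apply, Pi.single_eq_of_ne hki, ofInt, hf] at hk ⊢
          have : ⌊x k⌋ = n k := Int.floor_eq_iff.2
            ⟨by linarith [hk.1], by linarith [hk.2]⟩
          omega
      refine Or.inr ⟨i, ?_, e⟩
      convert hi using 1
      funext k
      subst e
      by_cases hki : k = i
      · subst hki; simp [hy, ofInt]; ring
      · simp [hy, ofInt, Pi.single_eq_of_ne hki]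
  by_cases h : ∃ i, y ∈ cavity i
  · obtain ⟨i, hi⟩ := h
    refine ⟨f - Pi.single i 1, Or.inr (Set.mem_iUnion.2 ⟨i, ?_⟩), fun n hn => ?_⟩
    · show x - ofInt (f - Pi.single i 1) - Pi.single i 1 ∈ cavity i
      convert hi using 1
      funext k
      by_cases hki : k = i
      · subst hki; simp [hy, ofInt]; ring
      · simp [hy, ofInt, Pi.single_eq_of_ne hki]
    · rcases key n hn with ⟨-, hc⟩ | ⟨j, hj, e⟩
      · exact absurd hi (hc i)
      · rwa [cavity_eq hi hj]
  · simp only [not_exists] at h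
    refine ⟨f, Or.inl ⟨hyb, h⟩, fun n hn => ?_⟩
    rcases key n hn with ⟨e, -⟩ | ⟨j, hj, -⟩
    · exact e
    · exact absurd hj (h j)

lemma isClosed_cavity (i : Fin d) : IsClosed (cavity i) := by
  unfold cavity
  simp only [Set.ofPred_forall]
  exact isClosed_iInter fun k =>
    isClosed_le ((continuous_apply k).sub continuous_const).abs continuous_const

lemma measurableSet_jagged : MeasurableSet (jagged d) := by
  refine MeasurableSet.union ?_ (MeasurableSet.iUnion fun i => ?_)
  · have h : body d = Set.univ.pi (fun _ => Set.Ico (0 : ℝ) 1) ∩ ⋂ i, (cavity i)ᶜ := by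
      ext y; simp [body]
    rw [h]
    exact (MeasurableSet.univ_pi fun _ => measurableSet_Ico).inter
      (MeasurableSet.iInter fun i => (isClosed_cavity i).measurableSet.compl)
  · exact ((isClosed_cavity i).preimage (continuous_id.sub continuous_const)).measurableSet

lemma jagged_bounded : jagged d ⊆ Metric.closedBall 0 3 := by
  intro y hy
  rw [Metric.mem_closedBall, dist_zero_right, pi_norm_le_iff_of_nonneg (by norm_num)]
  intro k
  rw [Real.norm_eq_abs, abs_le]
  rcases mem_jagged_cases hy with ⟨hb, -⟩ | ⟨i, hi⟩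
  · have := hb k; constructor <;> linarith
  · have := cavity_bounds hi k
    simp only [Pi.sub_apply] at this
    by_cases hki : k = i
    · subst hki; simp at this; constructor <;> linarith
    · simp [Pi.single_eq_of_ne hki] at this; constructor <;> linarith

/-- The open part of the body. -/
def openBody (d : ℕ) : Set (Fin d → ℝ) :=
  {y | (∀ k, 0 < y k ∧ y k < 1) ∧ ∀ i, y ∉ cavity i}

lemma isOpen_openBody : IsOpen (openBody d) := by
  have h : openBody d = Set.univ.pi (fun _ => Set.Ioo (0 : ℝ) 1) ∩ ⋂ i, (cavity i)ᶜ := by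
    ext y; simp [openBody]
  rw [h]
  exact (isOpen_set_pi Set.finite_univ fun _ _ => isOpen_Ioo).inter
    (isOpen_iInter_of_finite fun i => (isClosed_cavity i).isOpen_compl)

lemma openBody_subset : openBody d ⊆ jagged d :=
  fun _ hy => Or.inl ⟨fun k => ⟨(hy.1 k).1.le, (hy.1 k).2⟩, hy.2⟩

/-- A point in the overlap of two open unit intervals, outside the band of the cavities. -/
lemma exists_edge {t : ℝ} (h : |t| < 1) :
    ∃ x : ℝ, 0 < x ∧ x < 1 ∧ t < x ∧ x < t + 1 ∧ (x < 3 / 16 ∨ 9 / 16 < x) := by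
  obtain ⟨h1, h2⟩ := abs_lt.1 h
  rcases le_or_gt 0 t with ht | ht
  · refine ⟨(max t (3 / 4) + 1) / 2, ?_⟩
    have := le_max_left t (3 / 4)
    have := le_max_right t (3 / 4)
    have : max t (3 / 4) < 1 := max_lt h2 (by norm_num)
    refine ⟨?_, ?_, ?_, ?_, Or.inr ?_⟩ <;> linarith
  · refine ⟨min (t + 1) (1 / 8) / 2, ?_⟩
    have := min_le_left (t + 1) (1 / 8)
    have := min_le_right (t + 1) (1 / 8)
    have : 0 < min (t + 1) (1 / 8) := lt_min (by linarith) (by norm_num)
    refine ⟨?_, ?_, ?_, ?_, Or.inl ?_⟩ <;> linarith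

lemma openBody_inter (hd : 2 ≤ d) {δ : Fin d → ℝ} (h : ∀ k, |δ k| < 1) :
    ∃ y, y ∈ openBody d ∧ y - δ ∈ openBody d := by
  classical
  let i₀ : Fin d := ⟨0, by omega⟩
  let i₁ : Fin d := ⟨1, by omega⟩
  have hne : i₁ ≠ i₀ := by simp [i₀, i₁, Fin.ext_iff]
  choose g g1 g2 g3 g4 g5 using fun k => exists_edge (h k)
  obtain ⟨z, z1, z2, z3, z4, z5⟩ := exists_edge (t := -δ i₁) (by simpa using h i₁)
  refine ⟨fun k => if k = i₁ then z + δ i₁ else g k, ⟨fun k => ?_, fun i hi => ?_⟩,
    ⟨fun k => ?_, fun i hi => ?_⟩⟩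
  · dsimp only
    split_ifs with e
    · constructor <;> linarith
    · exact ⟨g1 k, g2 k⟩
  · have := cavity_bounds hi i₀
    simp only [if_neg hne.symm] at this
    rcases g5 i₀ with e | e <;> linarith
  · simp only [Pi.sub_apply]
    split_ifs with e
    · subst e; constructor <;> linarith
    · have := g3 k; have := g4 k; constructor <;> linarith
  · have := cavity_bounds hi i₁
    simp only [Pi.sub_apply, if_true] at this
    rcases z5 with e | e <;> linarith

lemma volume_open_pos {U : Set (Fin d → ℝ)} (hU : IsOpen U) (hne : U.Nonempty)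
    {S : Set (Fin d → ℝ)} (hS : U ⊆ S) : volume S ≠ 0 := fun h0 =>
  (hU.measure_pos volume hne).ne' (measure_mono_null hS h0)

lemma volume_jagged_ne (hd : 2 ≤ d) (b : Fin d → ℝ) :
    volume {x | x - b ∈ jagged d} ≠ 0 := by
  obtain ⟨y, hy, -⟩ := openBody_inter hd (δ := 0) (fun k => by simp)
  exact volume_open_pos (isOpen_openBody.preimage (continuous_id.sub continuous_const))
    ⟨y + b, by simpa using hy⟩ fun x hx => openBody_subset hx

/-- Translates of the tile meeting in null sets and covering almost everything. -/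
structure Packs (B : Set (Fin d → ℝ)) : Prop where
  null : ∀ b ∈ B, ∀ b' ∈ B, b ≠ b' →
    volume ({x | x - b ∈ jagged d} ∩ {x | x - b' ∈ jagged d}) = 0
  cover : volume {x | ∀ b ∈ B, x - b ∉ jagged d} = 0

lemma eq_of_close (hd : 2 ≤ d) {B : Set (Fin d → ℝ)} (hB : Packs B) {b b' : Fin d → ℝ}
    (hb : b ∈ B) (hb' : b' ∈ B) (h : ∀ k, |b' k - b k| < 1) : b = b' := by
  by_contra hne
  obtain ⟨y, hy, hy'⟩ := openBody_inter hd (δ := b' - b) h
  exact volume_open_pos
    ((isOpen_openBody.preimage (continuous_id.sub continuous_const)).inter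
      (isOpen_openBody.preimage (continuous_id.sub continuous_const)))
    ⟨y + b, by
      show y + b - b ∈ openBody d ∧ y + b - b' ∈ openBody d
      refine ⟨by simpa using hy, ?_⟩
      convert hy' using 1; abel⟩
    (fun x hx => show _ ∧ _ from ⟨openBody_subset hx.1, openBody_subset hx.2⟩)
    (hB.null b hb b' hb' hne)

/-- The cavity of a translate can only be filled by the translate one step back. -/
lemma mem_sub_single (hd : 2 ≤ d) {B : Set (Fin d → ℝ)} (hB : Packs B) {b : Fin d → ℝ}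
    (hb : b ∈ B) (i : Fin d) : b - Pi.single i 1 ∈ B := by
  classical
  have near : ∀ b' ∈ B, ∀ x, x - b ∈ cavity i → x - b' ∈ jagged d →
      x - b' - Pi.single i 1 ∈ cavity i := by
    intro b' hb' x hx hx'
    have hne : b' ≠ b := by
      rintro rfl
      rcases mem_jagged_cases hx' with ⟨-, hc⟩ | ⟨j, hj⟩
      · exact hc i hx
      · have h1 := cavity_bounds hx j
        have h2 := cavity_bounds hj j
        simp only [Pi.sub_apply, Pi.single_eq_same] at h1 h2
        linarith
    rcases mem_jagged_cases hx' with ⟨hq, -⟩ | ⟨j, hj⟩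
    · exfalso
      apply hne
      refine (eq_of_close hd hB hb hb' fun k => ?_).symm
      have h1 := cavity_bounds hx k
      have h2 := hq k
      simp only [Pi.sub_apply] at h1 h2
      rw [abs_lt]; constructor <;> linarith
    · by_cases hji : j = i
      · subst hji; exact hj
      · exfalso
        apply hne
        refine (eq_of_close hd hB hb hb' fun k => ?_).symm
        have h1 := abs_le.1 (hx k)
        have h2 := abs_le.1 (hj k)
        simp only [Pi.sub_apply, centre, Pi.single_apply] at h1 h2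
        rw [abs_lt]
        split_ifs at h1 h2 <;> first | (constructor <;> linarith) | simp_all
  have touch : ∀ b' ∈ B, (∃ x, x - b ∈ cavity i ∧ x - b' ∈ jagged d) →
      ∀ k, |b' k - (b k - (Pi.single i 1 : Fin d → ℝ) k)| ≤ 1 / 8 := by
    rintro b' hb' ⟨x, hx, hx'⟩ k
    have h1 := abs_le.1 (hx k)
    have h2 := abs_le.1 (near b' hb' x hx hx' k)
    simp only [Pi.sub_apply] at h1 h2
    rw [abs_le]; constructor <;> linarith
  have hsub : ∀ b₁ : Fin d → ℝ, (∀ b' ∈ B, (∃ x, x - b ∈ cavity i ∧ x - b' ∈ jagged d) →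
      b' = b₁) → {x | x - b ∈ cavity i ∧ x - b₁ - Pi.single i 1 ∉ cavity i} ⊆
        {x | ∀ b' ∈ B, x - b' ∉ jagged d} := by
    intro b₁ hb₁ x hx b' hb' hx'
    have := near b' hb' x hx.1 hx'
    rw [hb₁ b' hb' ⟨x, hx.1, hx'⟩] at this
    exact hx.2 this
  -- an open box inside the cavity, cut down in one coordinate
  have box : ∀ (k₀ : Fin d) (u v : ℝ), -(1 / 16) ≤ u → u < v → v ≤ 1 / 16 →
      ∀ S : Set (Fin d → ℝ), (∀ y, y ∈ cavity i → u < y k₀ - centre i k₀ →
        y k₀ - centre i k₀ < v → y + b ∈ S) → volume S ≠ 0 := by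
    intro k₀ u v hu huv hv S hS
    let w : Fin d → ℝ := fun k => if k = k₀ then u else -(1 / 16)
    let w' : Fin d → ℝ := fun k => if k = k₀ then v else 1 / 16
    refine volume_open_pos
      (U := Set.univ.pi fun k => Set.Ioo (centre i k + b k + w k) (centre i k + b k + w' k))
      (isOpen_set_pi Set.finite_univ fun _ _ => isOpen_Ioo)
      ⟨fun k => centre i k + b k + (w k + w' k) / 2, fun k _ => ?_⟩ fun x hx => ?_
    · have : w k < w' k := by simp only [w, w']; split_ifs <;> linarith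
      constructor <;> linarith
    · have hx : ∀ k, centre i k + b k + w k < x k ∧ x k < centre i k + b k + w' k :=
        fun k => hx k (Set.mem_univ k)
      have h0 := hx k₀
      simp only [w, w', if_true] at h0
      have := hS (x - b) (fun k => ?_) (by simp; linarith) (by simp; linarith)
      · simpa using this
      · have := hx k
        simp only [w, w'] at this
        simp only [Pi.sub_apply]
        rw [abs_le]
        split_ifs at this <;> constructor <;> linarith
  obtain ⟨b₁, hb₁, htouch⟩ : ∃ b₁ ∈ B, ∃ x, x - b ∈ cavity i ∧ x - b₁ ∈ jagged d := by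
    by_contra hno
    refine box i (-(1 / 16)) (1 / 16) le_rfl (by norm_num) le_rfl
      {x | ∀ b' ∈ B, x - b' ∉ jagged d} (fun y hy _ _ b' hb' hx' => ?_) hB.cover
    exact hno ⟨b', hb', y + b, by simpa using hy, hx'⟩
  have huniq : ∀ b' ∈ B, (∃ x, x - b ∈ cavity i ∧ x - b' ∈ jagged d) → b' = b₁ :=
    fun b' hb' ht => eq_of_close hd hB hb' hb₁ (fun k => by
      have h1 := abs_le.1 (touch b' hb' ht k)
      have h2 := abs_le.1 (touch b₁ hb₁ htouch k)
      rw [abs_lt]; constructor <;> linarith) |>.symm.symm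
  suffices e : b₁ = b - Pi.single i 1 by rwa [← e]
  by_contra hne
  obtain ⟨k₀, hk₀⟩ := Function.ne_iff.1 hne
  set u := b₁ k₀ - (b k₀ - (Pi.single i 1 : Fin d → ℝ) k₀) with hu
  have hu0 : u ≠ 0 := fun e => hk₀ (by simp only [Pi.sub_apply]; linarith)
  have hu8 : -(1 / 8) ≤ u ∧ u ≤ 1 / 8 := abs_le.1 (touch b₁ hb₁ htouch k₀)
  have hnull := measure_mono_null (hsub b₁ huniq) hB.cover
  rcases lt_or_gt_of_ne hu0 with hlt | hgt
  · refine box k₀ (max (-(1 / 16)) (1 / 16 + u)) (1 / 16) (le_max_left _ _)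
      (max_lt (by norm_num) (by linarith)) le_rfl _ (fun y hy h1 h2 =>
      show _ ∧ _ from ⟨by simpa using hy, ?_⟩) hnull
    intro hc
    have h3 := abs_le.1 (hc k₀)
    have := le_max_right (-(1 / 16)) (1 / 16 + u)
    simp only [Pi.sub_apply, Pi.add_apply] at h3
    linarith
  · refine box k₀ (-(1 / 16)) (min (1 / 16) (-(1 / 16) + u)) le_rfl
      (lt_min (by norm_num) (by linarith)) (min_le_left _ _) _
      (fun y hy h1 h2 => show _ ∧ _ from ⟨by simpa using hy, ?_⟩) hnull
    intro hc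
    have h3 := abs_le.1 (hc k₀)
    have := min_le_right (1 / 16) (-(1 / 16) + u)
    simp only [Pi.sub_apply, Pi.add_apply] at h3
    linarith

lemma mem_sub_natCast (hd : 2 ≤ d) {B : Set (Fin d → ℝ)} (hB : Packs B) {b : Fin d → ℝ}
    (hb : b ∈ B) (n : Fin d → ℕ) : (fun k => b k - n k) ∈ B := by
  classical
  suffices H : ∀ s : ℕ, ∀ n : Fin d → ℕ, ∑ k, n k = s → (fun k => b k - n k) ∈ B from H _ n rfl
  intro s
  induction s with
  | zero =>
    intro n hn
    have h0 : ∀ k, n k = 0 := fun k => (Finset.sum_eq_zero_iff.1 hn) k (Finset.mem_univ k)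
    simpa [h0] using hb
  | succ s ih =>
    intro n hn
    obtain ⟨i, hi⟩ : ∃ i, n i ≠ 0 := by
      by_contra h
      simp only [not_exists, not_not] at h
      simp [h] at hn
    have hsum : ∑ k, Function.update n i (n i - 1) k = s := by
      rw [Finset.sum_update_of_mem (Finset.mem_univ i),
        ← Finset.erase_eq] 
      have := Finset.add_sum_erase _ n (Finset.mem_univ i)
      omega
    have h := mem_sub_single hd hB (ih _ hsum) i
    convert h using 1
    funext k
    by_cases hk : k = i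
    · subst hk
      simp [Nat.cast_sub (Nat.one_le_iff_ne_zero.2 hi)]; ring
    · simp [Pi.single_eq_of_ne hk, Function.update_of_ne hk]

/-- All translates lie in one coset of the integer lattice. -/
lemma coset (hd : 2 ≤ d) {B : Set (Fin d → ℝ)} (hB : Packs B) {b b' : Fin d → ℝ}
    (hb : b ∈ B) (hb' : b' ∈ B) : ∃ n, b' = b + ofInt n := by
  let k : Fin d → ℤ := fun i => ⌊b' i - b i⌋
  refine ⟨k, funext fun i => ?_⟩
  have e := eq_of_close hd hB (mem_sub_natCast hd hB hb fun i => (-k i).toNat)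
    (mem_sub_natCast hd hB hb' fun i => (k i).toNat) fun i => ?_
  · have := congrFun e i
    simp only [Pi.add_apply, ofInt]
    have hk : ((k i).toNat : ℝ) - ((-k i).toNat : ℝ) = (k i : ℝ) := by
      have h := Int.toNat_sub_toNat_neg (k i)
      exact_mod_cast h
    linarith
  · have h1 := Int.floor_le (b' i - b i)
    have h2 := Int.lt_floor_add_one (b' i - b i)
    have hk : ((k i).toNat : ℝ) - ((-k i).toNat : ℝ) = (k i : ℝ) := by
      have h := Int.toNat_sub_toNat_neg (k i)
      exact_mod_cast h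
    simp only [k] at hk ⊢
    rw [abs_lt]
    constructor <;> linarith

/-- An aperiodic tile of `ℤ^d` gives a bounded measurable aperiodic tile of `ℝ^d`. -/
theorem euclidean_transfer (hd : 2 ≤ d)
    (h : ∃ F : Finset (Fin d → ℤ), F.Nonempty ∧ (∃ A, Tiles A F) ∧
      ∀ A, Tiles A F → ¬BoxPeriodic A) :
    ∃ Ω : Set (Fin d → ℝ), Bornology.IsBounded Ω ∧ MeasurableSet Ω ∧ 0 < volume Ω ∧
      (∃ A : Set (Fin d → ℝ),
        (∀ a ∈ A, ∀ a' ∈ A, a ≠ a' → volume ({x | x - a ∈ Ω} ∩ {x | x - a' ∈ Ω}) = 0) ∧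
        volume {x | ∀ a ∈ A, x - a ∉ Ω} = 0) ∧
      ¬∃ A : Set (Fin d → ℝ),
        ((∀ a ∈ A, ∀ a' ∈ A, a ≠ a' → volume ({x | x - a ∈ Ω} ∩ {x | x - a' ∈ Ω}) = 0) ∧
          volume {x | ∀ a ∈ A, x - a ∉ Ω} = 0) ∧
        ∃ v : Fin d → Fin d → ℝ, LinearIndependent ℝ v ∧
          ∀ i a, a + v i ∈ A ↔ a ∈ A := by
  classical
  obtain ⟨F, ⟨f₀, hf₀⟩, ⟨A₀, hA₀⟩, hno⟩ := h
  let Ω : Set (Fin d → ℝ) := ⋃ f ∈ F, {y | y - ofInt f ∈ jagged d}
  have memΩ : ∀ {y}, y ∈ Ω ↔ ∃ f ∈ F, y - ofInt f ∈ jagged d := fun {y} => by simp [Ω]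
  have hΩb : Bornology.IsBounded Ω := by
    refine (Bornology.isBounded_biUnion_finset F).2 fun f _ => ?_
    refine (Metric.isBounded_closedBall (x := ofInt f) (r := 3)).subset fun y hy => ?_
    have := jagged_bounded hy
    rw [Metric.mem_closedBall] at this ⊢
    rwa [dist_zero_right, ← dist_eq_norm] at this
  have hΩm : MeasurableSet Ω := MeasurableSet.biUnion F.countable_toSet fun f _ =>
    (measurable_id.sub_const (ofInt f)) measurableSet_jagged
  have hΩp : 0 < volume Ω := pos_iff_ne_zero.2 fun h0 =>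
    volume_jagged_ne hd (ofInt f₀) (measure_mono_null (fun y hy => memΩ.2 ⟨f₀, hf₀, hy⟩) h0)
  refine ⟨Ω, hΩb, hΩm, hΩp, ⟨ofInt '' A₀, ?_, ?_⟩, ?_⟩
  · rintro _ ⟨a, ha, rfl⟩ _ ⟨a', ha', rfl⟩ hne
    refine measure_mono_null (fun x hx => ?_) measure_empty
    obtain ⟨f, hf, hxf⟩ := memΩ.1 hx.1
    obtain ⟨f', hf', hxf'⟩ := memΩ.1 hx.2
    rw [sub_sub, ← ofInt_add] at hxf hxf'
    have e := (existsUnique_jagged x).unique hxf hxf'
    have e2 := (hA₀ (a + f)).unique ⟨hf, by simpa using ha⟩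
      ⟨hf', by rw [e]; simpa using ha'⟩
    subst e2
    exact hne (by rw [add_right_cancel e])
  · refine measure_mono_null (fun x hx => ?_) measure_empty
    obtain ⟨n, hn, -⟩ := existsUnique_jagged x
    obtain ⟨f, ⟨hf, hfA⟩, -⟩ := hA₀ n
    refine hx (ofInt (n - f)) ⟨_, hfA, rfl⟩ (memΩ.2 ⟨f, hf, ?_⟩)
    rwa [sub_sub, ← ofInt_add, sub_add_cancel]
  rintro ⟨A, ⟨hnull, hcov⟩, v, hv, hinv⟩
  -- no cell is used twice
  have hinj : ∀ a ∈ A, ∀ a' ∈ A, ∀ f ∈ F, ∀ f' ∈ F,
      a + ofInt f = a' + ofInt f' → a = a' ∧ f = f' := by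
    intro a ha a' ha' f hf f' hf' e
    by_cases haa : a = a'
    · subst haa
      exact ⟨rfl, ofInt_injective (add_left_cancel e)⟩
    · exfalso
      refine volume_jagged_ne hd (a + ofInt f)
        (measure_mono_null (fun x hx => ?_) (hnull a ha a' ha' haa))
      refine ⟨memΩ.2 ⟨f, hf, by rw [sub_sub]; exact hx⟩, memΩ.2 ⟨f', hf', ?_⟩⟩
      rw [sub_sub, ← e]; exact hx
  let B : Set (Fin d → ℝ) := {b | ∃ a ∈ A, ∃ f ∈ F, b = a + ofInt f}
  have hB : Packs B := by
    refine ⟨?_, measure_mono_null (show {x | ∀ b ∈ B, x - b ∉ jagged d} ⊆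
      {x | ∀ a ∈ A, x - a ∉ Ω} from fun x hx a ha hxa => ?_) hcov⟩
    · rintro _ ⟨a, ha, f, hf, rfl⟩ _ ⟨a', ha', f', hf', rfl⟩ hne
      by_cases haa : a = a'
      · subst haa
        refine measure_mono_null (fun x hx => ?_) measure_empty
        obtain ⟨h1, h2⟩ := hx
        simp only [Set.mem_ofPred_eq, ← sub_sub] at h1 h2
        exact hne (by rw [(existsUnique_jagged (x - a)).unique h1 h2])
      · refine measure_mono_null (fun x hx => ?_) (hnull a ha a' ha' haa)
        exact ⟨memΩ.2 ⟨f, hf, by rw [sub_sub]; exact hx.1⟩,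
          memΩ.2 ⟨f', hf', by rw [sub_sub]; exact hx.2⟩⟩
    · obtain ⟨f, hf, hxf⟩ := memΩ.1 hxa
      exact hx (a + ofInt f) ⟨a, ha, f, hf, rfl⟩ (by rwa [← sub_sub])
  obtain ⟨a₀, ha₀⟩ : A.Nonempty := by
    by_contra h
    rw [Set.not_nonempty_iff_eq_empty] at h
    subst h
    exact volume_jagged_ne hd 0 (measure_mono_null
      (show _ ⊆ {x | ∀ a ∈ (∅ : Set (Fin d → ℝ)), x - a ∉ Ω} from
        fun x _ a ha => absurd ha (Set.notMem_empty a)) hcov)
  have hshift : ∀ a ∈ A, ∃ n, a = a₀ + ofInt n := fun a ha => by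
    obtain ⟨n, hn⟩ := coset hd hB ⟨a₀, ha₀, f₀, hf₀, rfl⟩ ⟨a, ha, f₀, hf₀, rfl⟩
    exact ⟨n, by linear_combination hn⟩
  let A' : Set (Fin d → ℤ) := {n | a₀ + ofInt n ∈ A}
  have htiles : Tiles A' F := by
    intro g
    have hexg : ∃ f, f ∈ F ∧ g - f ∈ A' := by
      by_contra hno'
      refine volume_jagged_ne hd (a₀ + ofInt g) (measure_mono_null (show _ ⊆
        {x | ∀ b ∈ B, x - b ∉ jagged d} from fun x hx b hb hxb => ?_) hB.cover)
      obtain ⟨a, ha, f, hf, rfl⟩ := hb
      obtain ⟨m, rfl⟩ := hshift a ha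
      simp only [Set.mem_ofPred_eq, ← sub_sub] at hx
      rw [add_assoc, ← ofInt_add, ← sub_sub] at hxb
      have e := (existsUnique_jagged (x - a₀)).unique hxb hx
      exact hno' ⟨f, hf, by rw [← e, add_sub_cancel_right]; exact ha⟩
    obtain ⟨f, hf, hfA⟩ := hexg
    refine ⟨f, ⟨hf, hfA⟩, fun f' ⟨hf', hf'A⟩ => ?_⟩
    refine (hinj _ hf'A _ hfA f' hf' f hf ?_).2
    rw [add_assoc, add_assoc, ← ofInt_add, ← ofInt_add, sub_add_cancel, sub_add_cancel]
  apply hno A' htiles
  have hw : ∀ i, ∃ w, v i = ofInt w := fun i => by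
    obtain ⟨n, hn⟩ := hshift _ ((hinv i a₀).2 ha₀)
    exact ⟨n, add_left_cancel hn⟩
  choose w hw using hw
  let S : AddSubgroup (Fin d → ℤ) :=
    { carrier := {h | ∀ a, a + h ∈ A' ↔ a ∈ A'}
      zero_mem' := fun a => by rw [add_zero]
      add_mem' := fun {x y} hx hy a => by rw [← add_assoc, hy, hx]
      neg_mem' := fun {x} hx a => by rw [← hx (a + -x), neg_add_cancel_right] }
  have hwS : ∀ i, w i ∈ S := fun i a => by
    show a₀ + ofInt (a + w i) ∈ A ↔ a₀ + ofInt a ∈ A
    rw [ofInt_add, ← hw, ← add_assoc]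
    exact hinv i _
  let W : Matrix (Fin d) (Fin d) ℤ := Matrix.of w
  have hdet : W.det ≠ 0 := by
    intro h0
    have hrow : LinearIndependent ℝ (W.map (Int.cast : ℤ → ℝ)).row := by
      convert hv using 1
      funext i k
      simp [Matrix.row, W, hw i, ofInt]
    have h1 := (Matrix.isUnit_iff_isUnit_det _).1
      (Matrix.linearIndependent_rows_iff_isUnit.1 hrow)
    apply h1.ne_zero
    have h2 := (Int.castRingHom ℝ).map_det W
    simp only [h0, map_zero] at h2
    exact h2.symm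
  have hdetS : ∀ i, Pi.single i W.det ∈ S := by
    intro i
    have hsum : Pi.single i W.det = ∑ j, (W.adjugate i j) • w j := by
      funext k
      have := congrFun (congrFun (Matrix.adjugate_mul W) i) k
      simp only [Matrix.mul_apply, Matrix.smul_apply, Matrix.one_apply, W,
        Matrix.of_apply, smul_eq_mul] at this
      rw [Finset.sum_apply]
      simp only [Pi.smul_apply, smul_eq_mul]
      by_cases hk : i = k
      · subst hk; rw [this]; simp [W]
      · rw [this]; simp [hk]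
    rw [hsum]
    exact S.sum_mem fun j _ => S.zsmul_mem (hwS j) _
  refine ⟨W.det.natAbs, Int.natAbs_pos.2 hdet, fun i a => ?_⟩
  rcases Int.natAbs_eq W.det with e | e
  · exact (show Pi.single i (W.det.natAbs : ℤ) ∈ S by rw [← e]; exact hdetS i) a
  · refine (show Pi.single i (W.det.natAbs : ℤ) ∈ S from ?_) a
    have h : (W.det.natAbs : ℤ) = -W.det := by omega
    rw [h, Pi.single_neg]
    exact S.neg_mem (hdetS i)

/-- A period in every coordinate gives invariance under a finite-index subgroup. -/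
lemma exists_finiteIndex {A : Set (Fin d → ℤ)} (hA : BoxPeriodic A) :
    ∃ H : AddSubgroup (Fin d → ℤ), H.FiniteIndex ∧ ∀ h ∈ H, ∀ a, a + h ∈ A ↔ a ∈ A := by
  classical
  obtain ⟨P, hP, hper⟩ := hA
  haveI : NeZero P := ⟨hP.ne'⟩
  let φ : (Fin d → ℤ) →+ (Fin d → ZMod P) :=
    { toFun := fun x i => (x i : ZMod P)
      map_zero' := funext fun i => by simp
      map_add' := fun x y => funext fun i => by simp }
  let S : AddSubgroup (Fin d → ℤ) :=
    { carrier := {h | ∀ a, a + h ∈ A ↔ a ∈ A}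
      zero_mem' := fun a => by rw [add_zero]
      add_mem' := fun {x y} hx hy a => by rw [← add_assoc, hy, hx]
      neg_mem' := fun {x} hx a => by rw [← hx (a + -x), neg_add_cancel_right] }
  refine ⟨φ.ker, AddSubgroup.finiteIndex_ker φ, fun h hh => ?_⟩
  show h ∈ S
  have hdvd : ∀ i, (P : ℤ) ∣ h i := fun i => by
    rw [← ZMod.intCast_zmod_eq_zero_iff_dvd]
    exact congrFun (AddMonoidHom.mem_ker.1 hh) i
  choose c hc using hdvd
  have e : h = ∑ i, c i • (Pi.single i (P : ℤ) : Fin d → ℤ) := by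
    funext k
    simp [Finset.sum_apply, Pi.single_apply, hc k, mul_comm]
  rw [e]
  exact S.sum_mem fun i _ => S.zsmul_mem (fun a => hper i a) _

/-- The transfer, from a tile without a tiling invariant under a finite-index subgroup. -/
theorem euclidean_tiling_fails (hd : 2 ≤ d)
    (h : ∃ F : Finset (Fin d → ℤ), F.Nonempty ∧
      (∃ A : Set (Fin d → ℤ), ∀ g, ∃! f, f ∈ F ∧ g - f ∈ A) ∧
      ¬∃ A : Set (Fin d → ℤ), (∀ g, ∃! f, f ∈ F ∧ g - f ∈ A) ∧
        ∃ H : AddSubgroup (Fin d → ℤ), H.FiniteIndex ∧ ∀ h ∈ H, ∀ a, a + h ∈ A ↔ a ∈ A) :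
    ∃ Ω : Set (Fin d → ℝ), Bornology.IsBounded Ω ∧ MeasurableSet Ω ∧ 0 < volume Ω ∧
      (∃ A : Set (Fin d → ℝ),
        (∀ a ∈ A, ∀ a' ∈ A, a ≠ a' → volume ({x | x - a ∈ Ω} ∩ {x | x - a' ∈ Ω}) = 0) ∧
        volume {x | ∀ a ∈ A, x - a ∉ Ω} = 0) ∧
      ¬∃ A : Set (Fin d → ℝ),
        ((∀ a ∈ A, ∀ a' ∈ A, a ≠ a' → volume ({x | x - a ∈ Ω} ∩ {x | x - a' ∈ Ω}) = 0) ∧
          volume {x | ∀ a ∈ A, x - a ∉ Ω} = 0) ∧
        ∃ v : Fin d → Fin d → ℝ, LinearIndependent ℝ v ∧
          ∀ i a, a + v i ∈ A ↔ a ∈ A := by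
  obtain ⟨F, hne, hA, hno⟩ := h
  exact euclidean_transfer hd
    ⟨F, hne, hA, fun A hA' hper => hno ⟨A, hA', exists_finiteIndex hper⟩⟩

end Vale.Agent.P043.Euclid
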