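import Vale.Agent.P043.System

/-!
# Lifting the system to `ℤ⁴`
-/

namespace Vale.Agent.P043

lemma intCast_pi_surjective {C : Type*} [Fintype C] (n : C → ℕ)
    (hn : Pairwise (Function.onFun Nat.Coprime n)) :
    Function.Surjective (Int.cast : ℤ → Coord n) := by
  classical
  intro r
  let φ := ZMod.prodEquivPi n hn
  obtain ⟨k, hk⟩ := ZMod.intCast_surjective (φ.symm r)
  exact ⟨k, by rw [← map_intCast φ k, hk, φ.apply_symm_apply]⟩

variable {R : Type} [CommRing R] [Fintype R] {J : Type} [Fintype J]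

/-- A finite family of finite sets tiles `ℤ⁴` simultaneously but never periodically. -/
theorem exists_lifted_system (hcast : Function.Surjective (Int.cast : ℤ → R))
    (system : J → R → (ℤ × ℤ) × (R × R)) (base : J) (hbase : system base 0 = 0)
    (hsolve : ∃ A : Set ((ℤ × ℤ) × (R × R)), ∀ k, TilesBy A (system k))
    (hnoper : ∀ A : Set ((ℤ × ℤ) × (R × R)), (∀ k, TilesBy A (system k)) → ∀ P : ℕ, 0 < P →
      ¬∀ x p, (((x.1 + P, x.2) : ℤ × ℤ), p) ∈ A ↔ (x, p) ∈ A) :
    ∃ κ : Type, ∃ _ : Fintype κ, ∃ _ : Nonempty κ, ∃ Fs : κ → Finset (Fin 4 → ℤ),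
      (∀ k, (Fs k).Nonempty) ∧ (∃ U, ∀ k, Tiles U (Fs k)) ∧
      ∀ U, (∀ k, Tiles U (Fs k)) → ¬BoxPeriodic U := by
  classical
  let π : (Fin 4 → ℤ) → ((ℤ × ℤ) × (R × R)) := fun z => ((z 0, z 1), ((z 2 : R), (z 3 : R)))
  have hπsub : ∀ y z, π (y - z) = π y - π z := fun y z => by simp [π]
  have hπadd : ∀ y z, π (y + z) = π y + π z := fun y z => by simp [π]
  choose sec₀ hsec₀ using hcast
  let sec₁ : R → ℤ := fun r => if r = 0 then 0 else sec₀ r
  have hsec₁ : ∀ r, (sec₁ r : R) = r := fun r => by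
    by_cases h : r = 0 <;> simp [sec₁, h, hsec₀]
  let sect : ((ℤ × ℤ) × (R × R)) → Fin 4 → ℤ := fun p => ![p.1.1, p.1.2, sec₁ p.2.1, sec₁ p.2.2]
  have hsect : ∀ p, π (sect p) = p := fun p => by simp [π, sect, hsec₁]
  have hsect0 : sect 0 = 0 := by
    funext i; fin_cases i <;> simp [sect, sec₁]
  let N := ringChar R
  have hN : ∀ k : ℤ, (k : R) = 0 ↔ (N : ℤ) ∣ k := CharP.intCast_eq_zero_iff R N
  have hN0 : N ≠ 0 := by
    haveI := ringChar.charP R
    exact CharP.char_ne_zero_of_finite R N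
  let F : J → Finset (Fin 4 → ℤ) := fun k => Finset.univ.image fun s => sect (system k s)
  let gen : Fin 2 → Fin 4 → ℤ := ![Pi.single 2 (N : ℤ), Pi.single 3 (N : ℤ)]
  have hgen : ∀ i, π (gen i) = 0 := fun i => by
    have := (hN N).2 dvd_rfl
    push_cast at this
    fin_cases i <;> simp [π, gen, this] <;> rfl
  have h0mem : (0 : Fin 4 → ℤ) ∈ F base := by
    simp only [F, Finset.mem_image, Finset.mem_univ, true_and]
    exact ⟨0, by rw [hbase, hsect0]⟩
  let Fs : J ⊕ Fin 2 → Finset (Fin 4 → ℤ) :=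
    Sum.elim F fun i => insert (gen i) ((F base).erase 0)
  have hgenmem : ∀ i, gen i ∉ (F base).erase 0 := by
    intro i h
    simp only [Finset.mem_erase, F, Finset.mem_image, Finset.mem_univ, true_and] at h
    obtain ⟨h0, s, hs⟩ := h
    have h1 := congrArg π hs
    rw [hsect, hgen] at h1
    exact h0 (by rw [← hs, h1, hsect0])
  refine ⟨J ⊕ Fin 2, Fintype.ofFinite _, inferInstance, Fs, ?_, ?_, ?_⟩
  · rintro (k | i)
    · exact Finset.univ_nonempty.image _
    · exact Finset.insert_nonempty _ _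
  · obtain ⟨A, hA⟩ := hsolve
    refine ⟨π ⁻¹' A, ?_⟩
    have hF : ∀ k g, ∃! f, f ∈ F k ∧ g - f ∈ π ⁻¹' A := by
      intro k g
      obtain ⟨s, hs, hu⟩ := hA k (π g)
      refine ⟨sect (system k s), ⟨Finset.mem_image.2 ⟨s, Finset.mem_univ _, rfl⟩, ?_⟩, ?_⟩
      · show π (g - _) ∈ A
        rwa [hπsub, hsect]
      · rintro f ⟨hf, hfA⟩
        obtain ⟨t, -, rfl⟩ := Finset.mem_image.1 hf
        have ht : π g - system k t ∈ A := by
          have : π (g - sect (system k t)) ∈ A := hfA
          rwa [hπsub, hsect] at this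
        rw [hu t ht]
    rintro (k | i) g
    · exact hF k g
    · obtain ⟨f, ⟨hf, hfA⟩, hu⟩ := hF base g
      have hequiv : ∀ y, y + gen i ∈ π ⁻¹' A ↔ y ∈ π ⁻¹' A := fun y => by
        simp only [Set.mem_preimage, hπadd, hgen, add_zero]
      have hsh : ∀ y, y - gen i ∈ π ⁻¹' A ↔ y ∈ π ⁻¹' A := fun y => by
        rw [← hequiv (y - gen i), sub_add_cancel]
      simp only [Fs, Sum.elim_inr]
      by_cases hf0 : f = 0
      · subst hf0
        refine ⟨gen i, ⟨Finset.mem_insert_self _ _, by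
          rw [hsh]; simpa using hfA⟩, ?_⟩
        rintro f' ⟨hf', hfA'⟩
        rcases Finset.mem_insert.1 hf' with h | h
        · exact h
        · exact absurd (hu f' ⟨Finset.mem_of_mem_erase h, hfA'⟩) (Finset.ne_of_mem_erase h)
      · refine ⟨f, ⟨Finset.mem_insert_of_mem (Finset.mem_erase.2 ⟨hf0, hf⟩), hfA⟩, ?_⟩
        rintro f' ⟨hf', hfA'⟩
        rcases Finset.mem_insert.1 hf' with h | h
        · subst h
          rw [hsh] at hfA'
          exact absurd (hu 0 ⟨h0mem, by simpa using hfA'⟩).symm hf0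
        · exact hu f' ⟨Finset.mem_of_mem_erase h, hfA'⟩
  · intro U hU hper
    -- `U` is invariant under the kernel of `π`
    have hinv : ∀ i u, u + gen i ∈ U ↔ u ∈ U := by
      intro i u
      constructor <;> intro h
      · obtain ⟨f, ⟨hf, hfU⟩, hu⟩ := hU (Sum.inr i) (u + gen i)
        rcases Finset.mem_insert.1 hf with e | e
        · simpa [e] using hfU
        · have := (hU (Sum.inl base) (u + gen i)).unique
            ⟨Finset.mem_of_mem_erase e, hfU⟩ ⟨h0mem, by simpa using h⟩
          exact absurd this (Finset.ne_of_mem_erase e)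
      · obtain ⟨f, ⟨hf, hfU⟩, hu⟩ := hU (Sum.inl base) (u + gen i)
        by_cases e : f = 0
        · simpa [e] using hfU
        · have := (hU (Sum.inr i) (u + gen i)).unique
            ⟨Finset.mem_insert_of_mem (Finset.mem_erase.2 ⟨e, hf⟩), hfU⟩
            ⟨Finset.mem_insert_self _ _, by simpa using h⟩
          exact absurd (this ▸ Finset.mem_erase.2 ⟨e, hf⟩) (hgenmem i)
    have hmul : ∀ i (n : ℤ) u, u + n • gen i ∈ U ↔ u ∈ U := by
      intro i n
      induction n using Int.inductionOn' (b := 0) with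
      | zero => simp
      | succ k _ ih => intro u; rw [add_zsmul, one_zsmul, ← add_assoc, hinv, ih]
      | pred k _ ih =>
        intro u
        rw [← hinv i, add_assoc, show (k - 1) • gen i + gen i = k • gen i by
          rw [sub_zsmul, one_zsmul, ← sub_eq_add_neg, sub_add_cancel], ih]
    have hker : ∀ y z, π y = π z → (y ∈ U ↔ z ∈ U) := by
      intro y z h
      simp only [π, Prod.mk.injEq] at h
      obtain ⟨⟨h0, h1⟩, h2, h3⟩ := h
      obtain ⟨a, ha⟩ := (hN (y 2 - z 2)).1 (by push_cast; rw [h2, sub_self])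
      obtain ⟨b, hb⟩ := (hN (y 3 - z 3)).1 (by push_cast; rw [h3, sub_self])
      have : y = z + a • gen 0 + b • gen 1 := by
        funext j
        fin_cases j <;> simp [gen]
        · exact h0
        · exact h1
        · linarith
        · linarith
      rw [this, hmul, hmul]
    have hmemA : ∀ y, π y ∈ π '' U ↔ y ∈ U := fun y =>
      ⟨fun ⟨z, hz, e⟩ => (hker y z e.symm).2 hz, fun h => ⟨y, h, rfl⟩⟩
    have hsys : ∀ k, TilesBy (π '' U) (system k) := by
      intro k g
      obtain ⟨A₀, hA₀⟩ := hsolve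
      have hinj : Function.Injective (system k) := by
        intro s t e
        obtain ⟨r, hr, -⟩ := hA₀ k 0
        set a := (0 : ((ℤ × ℤ) × (R × R))) - system k r
        exact (hA₀ k (a + system k s)).unique (by simpa using hr) (by rw [e]; simpa using hr)
      have key : ∀ s, g - system k s ∈ π '' U ↔ sect g - sect (system k s) ∈ U := fun s => by
        rw [← hmemA, hπsub, hsect, hsect]
      obtain ⟨f, ⟨hf, hfU⟩, hu⟩ := hU (Sum.inl k) (sect g)
      obtain ⟨s, -, rfl⟩ := Finset.mem_image.1 hf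
      refine ⟨s, (key s).2 hfU, fun t ht => hinj ?_⟩
      have := hu (sect (system k t))
        ⟨Finset.mem_image.2 ⟨t, Finset.mem_univ _, rfl⟩, (key t).1 ht⟩
      simpa [hsect] using congrArg π this
    obtain ⟨P, hP, hperU⟩ := hper
    refine hnoper _ hsys P hP fun x p => ?_
    have := hperU 0 (sect (x, p))
    rw [← hmemA, ← hmemA, hπadd, hsect] at this
    rw [← this]
    have e : (x, p) + π (Pi.single 0 (P : ℤ)) = ((x.1 + (P : ℤ), x.2), p) := by
      simp [π, Prod.ext_iff]
    rw [e]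

/-- A tile of `ℤ⁴` without periodic tilings. -/
theorem exists_aperiodic_tile_four :
    ∃ F : Finset (Fin 4 → ℤ), F.Nonempty ∧ (∃ A, Tiles A F) ∧
      ∀ A, Tiles A F → ¬BoxPeriodic A := by
  obtain ⟨κ, _, _, Fs, hne, hsol, hnp⟩ := exists_lifted_system
    (intCast_pi_surjective modulus modulus_coprime) system (Sum.inl ())
    (rfl : system (Sum.inl ()) 0 = inFibre vertical 0) system_solvable system_not_periodic
  obtain ⟨F, hF, h1, h2⟩ := exists_single_tile Fs hne
  exact ⟨F, hF, h1 hsol, fun A hA hper => by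
    obtain ⟨U, hU, hUp⟩ := h2 A hA hper
    exact hnp U hU hUp⟩

end Vale.Agent.P043
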