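import Mathlib

/-!
# Tiling equations on `R × R`, `R` a finite product of cyclic rings

Equations that force each fibre of a translation set to be the graph of an affine
map with prescribed slopes, and a clause on these slopes.
-/

namespace Vale.Agent.P043

variable {C : Type*} {n : C → ℕ}

/-- The ring `Π c, ZMod (n c)`. -/
abbrev Coord (n : C → ℕ) := ∀ c, ZMod (n c)

/-- `d` takes allowed values only. -/
def Allowed (D : ∀ c, Finset (ZMod (n c))) (d : Coord n) : Prop := ∀ c, d c ∈ D c

/-- Every component is either a prime field with few slopes, or has only slope zero. -/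
def SlopeSets (D : ∀ c, Finset (ZMod (n c))) : Prop :=
  ∀ c, D c = {0} ∨
    ((n c).Prime ∧ (D c).Nonempty ∧ (D c).card * ((D c).card - 1) + 1 < n c)

/-- A map on a prime field all whose difference quotients lie in a small set is affine. -/
lemma affine_of_few_slopes {p : ℕ} [Fact p.Prime] (D : Finset (ZMod p))
    (hcard : D.card * (D.card - 1) + 1 < p) (φ : ZMod p → ZMod p)
    (h : ∀ x y, ∃ d ∈ D, φ y - φ x = d * (y - x)) :
    ∃ d ∈ D, ∀ x, φ x = φ 0 + d * x := by
  classical
  choose σ hσ using fun x => h 0 x
  have hpos : 0 < D.card := Finset.card_pos.2 ⟨_, (hσ 0).1⟩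
  obtain ⟨d, hd, hbig⟩ : ∃ d ∈ D, D.card - 1 <
      ((Finset.univ.erase (0 : ZMod p)).filter fun x => σ x = d).card := by
    apply Finset.exists_lt_card_fiber_of_mul_lt_card_of_maps_to (fun x _ => (hσ x).1)
    rw [Finset.card_erase_of_mem (Finset.mem_univ _), Finset.card_univ, ZMod.card]
    omega
  set P := insert (0 : ZMod p) ((Finset.univ.erase (0 : ZMod p)).filter fun x => σ x = d)
    with hP
  have hPd : ∀ x ∈ P, φ x = φ 0 + d * x := by
    intro x hx
    simp only [hP, Finset.mem_insert, Finset.mem_filter] at hx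
    rcases hx with rfl | ⟨-, hx⟩
    · simp
    · have := (hσ x).2
      rw [hx] at this
      linear_combination this
  have hPc : D.card < P.card := by
    rw [hP, Finset.card_insert_of_notMem (by simp)]
    omega
  refine ⟨d, hd, fun w => ?_⟩
  by_contra hw
  choose τ hτ using fun x => h x w
  have hinj : Set.InjOn τ P := by
    intro x hx y hy hxy
    have hx' := (hτ x).2
    have hy' := (hτ y).2
    rw [hPd x hx] at hx'
    rw [hPd y hy, ← hxy] at hy'
    have hmul : (τ x - d) * (y - x) = 0 := by linear_combination hy' - hx'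
    rcases mul_eq_zero.1 hmul with h0 | h0
    · rw [sub_eq_zero] at h0
      rw [h0] at hx'
      exact absurd (by linear_combination hx') hw
    · exact (sub_eq_zero.1 h0).symm
  exact absurd (Finset.card_le_card_of_injOn τ (fun x _ => (hτ x).1) hinj) (by omega)

variable [Fintype C] [DecidableEq C]

/-- For a forbidden difference `v` there is a common transversal of all allowed lines
through both `0` and `v`. -/
lemma exists_separating [∀ c, NeZero (n c)] {D : ∀ c, Finset (ZMod (n c))} (hD : SlopeSets D)
    (v : Coord n × Coord n) (c₀ : C) (hv : ∀ d ∈ D c₀, v.2 c₀ ≠ d * v.1 c₀) :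
    ∃ e : Coord n → Coord n × Coord n, e 0 = 0 ∧ (∃ s, s ≠ 0 ∧ e s = v) ∧
      ∀ d, Allowed D d → Function.Bijective fun s => (e s).2 - d * (e s).1 := by
  classical
  obtain ⟨a, b⟩ := v
  simp only at hv
  rcases hD c₀ with h0 | ⟨hp, hne, -⟩
  · have hb : b c₀ ≠ 0 := by simpa [h0] using hv 0 (by simp [h0])
    refine ⟨fun s => (fun c => if s c₀ = b c₀ then a c else 0,
      fun c => if c = c₀ then s c else s c + if s c₀ = b c₀ then b c else 0), ?_,
      ⟨Pi.single c₀ (b c₀), by simpa using hb, ?_⟩, fun d hd => ?_⟩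
    · ext c <;> simp [Ne.symm hb]
    · ext c
      · simp
      · by_cases hc : c = c₀
        · subst hc; simp
        · simp [hc]
    · refine Finite.injective_iff_bijective.1 fun s t hst => ?_
      have hc₀ : s c₀ = t c₀ := by
        have hz : d c₀ = 0 := by simpa [h0] using hd c₀
        simpa [hz] using congrFun hst c₀
      funext c
      by_cases hc : c = c₀
      · subst hc; exact hc₀
      · simpa [hc, hc₀] using congrFun hst c
  · haveI : Fact (n c₀).Prime := ⟨hp⟩
    obtain ⟨d₀, hd₀⟩ := hne
    have hv0 : ¬(a c₀ = 0 ∧ b c₀ = 0) := fun h => hv d₀ hd₀ (by simp [h.1, h.2])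
    refine ⟨fun s => (fun c => if c = c₀ then (if h : c₀ = c then h ▸ (s c₀ * a c₀) else 0)
        else if s c₀ = 1 then a c else 0,
      fun c => if c = c₀ then (if h : c₀ = c then h ▸ (s c₀ * b c₀) else 0)
        else s c + if s c₀ = 1 then b c else 0), ?_,
      ⟨Pi.single c₀ 1, by simp, ?_⟩, fun d hd => ?_⟩
    · ext c <;> by_cases hc : c = c₀ <;> (try subst hc) <;> simp_all
    · ext c <;> by_cases hc : c = c₀ <;> (try subst hc) <;> simp_all
    · refine Finite.injective_iff_bijective.1 fun s t hst => ?_
      have hc₀ : s c₀ = t c₀ := by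
        have h := congrFun hst c₀
        simp only [Pi.sub_apply, Pi.mul_apply, if_true, dite_true] at h
        have : (s c₀ - t c₀) * (b c₀ - d c₀ * a c₀) = 0 := by linear_combination h
        rcases mul_eq_zero.1 this with h' | h'
        · exact sub_eq_zero.1 h'
        · exact absurd (sub_eq_zero.1 h') (hv _ (hd c₀))
      funext c
      by_cases hc : c = c₀
      · subst hc; exact hc₀
      · simpa [hc, hc₀] using congrFun hst c

/-- For a line fibre, tiling by a family amounts to bijectivity of its projection. -/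
lemma tiles_line_iff {d o : Coord n} {X : Set (Coord n × Coord n)}
    (hX : ∀ u g, (u, g) ∈ X ↔ g = o + d * u) (e : Coord n → Coord n × Coord n) :
    (∀ z, ∃! s, z - e s ∈ X) ↔ Function.Bijective fun s => (e s).2 - d * (e s).1 := by
  rw [Function.bijective_iff_existsUnique]
  have key : ∀ z : Coord n × Coord n, ∀ s,
      z - e s ∈ X ↔ (e s).2 - d * (e s).1 = z.2 - o - d * z.1 := by
    intro z s
    rw [show z - e s = (z.1 - (e s).1, z.2 - (e s).2) from rfl, hX]
    constructor <;> intro h <;> linear_combination -h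
  constructor
  · intro h y
    refine (existsUnique_congr fun s => ?_).1 (h (0, y + o))
    rw [key]; simp
  · intro h z
    exact (existsUnique_congr fun s => (key z s)).2 (h _)

/-- A fibre satisfying the vertical and all separating equations is a line. -/
lemma exists_line [∀ c, NeZero (n c)] {D : ∀ c, Finset (ZMod (n c))} (hD : SlopeSets D)
    (X : Set (Coord n × Coord n)) (hvert : ∀ z, ∃! s : Coord n, z - ((0 : Coord n), s) ∈ X)
    (hsep : ∀ v : Coord n × Coord n, ∀ c₀, (∀ d ∈ D c₀, v.2 c₀ ≠ d * v.1 c₀) →
      ∃ e : Coord n → Coord n × Coord n, e 0 = 0 ∧ (∃ s, s ≠ 0 ∧ e s = v) ∧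
        ∀ z, ∃! s, z - e s ∈ X) :
    ∃ d o, Allowed D d ∧ ∀ u g, (u, g) ∈ X ↔ g = o + d * u := by
  classical
  have hf : ∀ u, ∃! g, (u, g) ∈ X := by
    intro u
    obtain ⟨s, hs, hu⟩ := hvert (u, 0)
    refine ⟨-s, by simpa using hs, fun g hg => ?_⟩
    rw [← neg_neg g, hu (-g) (by simpa using hg)]
  choose f hf hf' using hf
  have hdiff : ∀ u u' c, ∃ d ∈ D c, f u' c - f u c = d * (u' c - u c) := by
    intro u u' c
    by_contra hne
    simp only [not_exists, not_and] at hne
    obtain ⟨e, he0, ⟨s, hs0, hs⟩, he⟩ :=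
      hsep ((u', f u') - (u, f u)) c (fun d hd => hne d hd)
    refine hs0 ((he (u', f u')).unique ?_ ?_)
    · simpa [hs] using hf u
    · simpa [he0] using hf u'
  have hproj : ∀ u c, f u c = f (Pi.single c (u c)) c := by
    intro u c
    obtain ⟨d, -, h⟩ := hdiff (Pi.single c (u c)) u c
    simpa [sub_eq_zero] using h
  have haff : ∀ c, ∃ d ∈ D c, ∀ x : ZMod (n c),
      f (Pi.single c x) c = f (Pi.single c 0) c + d * x := by
    intro c
    have h : ∀ x y, ∃ d ∈ D c,
        f (Pi.single c y) c - f (Pi.single c x) c = d * (y - x) := fun x y => by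
      simpa using hdiff (Pi.single c x) (Pi.single c y) c
    rcases hD c with h0 | ⟨hp, -, hcard⟩
    · refine ⟨0, by simp [h0], fun x => ?_⟩
      obtain ⟨d, hd, hd'⟩ := h 0 x
      simp only [h0, Finset.mem_singleton] at hd
      simpa [hd, sub_eq_zero] using hd'
    · haveI : Fact (n c).Prime := ⟨hp⟩
      exact affine_of_few_slopes (D c) hcard (fun x => f (Pi.single c x) c) h
  choose d hd hd' using haff
  refine ⟨d, fun c => f (Pi.single c 0) c, hd, fun u g => ⟨fun hg => ?_, ?_⟩⟩
  · rw [hf' u g hg]
    funext c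
    rw [hproj u c, hd' c]
    simp
  · rintro rfl
    convert hf u using 2
    funext c
    rw [hproj u c, hd' c]
    simp

/-- The clause transversal: bijective iff some listed slope equals its reference value. -/
noncomputable def clauseMap {m : ℕ} [NeZero m] (j : Fin m → C) (r : Coord n) (s : Coord n) :
    Coord n × Coord n :=
  let u : Coord n := fun c => open Classical in
    if h : ∃ i, j i = c then (if s (j (h.choose + 1)) = 0 then 1 else 0) else 0
  (u, s + r * u)

lemma clauseMap_fst {m : ℕ} [NeZero m] {j : Fin m → C} (hj : Function.Injective j)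
    (r s : Coord n) (i : Fin m) :
    (clauseMap j r s).1 (j i) = if s (j (i + 1)) = 0 then 1 else 0 := by
  classical
  have h : ∃ i', j i' = j i := ⟨i, rfl⟩
  simp only [clauseMap, dif_pos h]
  rw [show h.choose = i from hj h.choose_spec]

lemma clauseMap_bijective [∀ c, NeZero (n c)] {m : ℕ} [NeZero m] {j : Fin m → C}
    (hj : Function.Injective j) (r d : Coord n) (i₀ : Fin m) (h : d (j i₀) = r (j i₀)) :
    Function.Bijective fun s => (clauseMap j r s).2 - d * (clauseMap j r s).1 := by
  classical
  refine Finite.injective_iff_bijective.1 fun s t hst => ?_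
  have hval : ∀ s c, ((clauseMap j r s).2 - d * (clauseMap j r s).1) c
      = s c + (r c - d c) * (clauseMap j r s).1 c := by
    intro s c
    simp only [clauseMap, Pi.sub_apply, Pi.add_apply, Pi.mul_apply]
    ring
  have hst' : ∀ c, s c + (r c - d c) * (clauseMap j r s).1 c
      = t c + (r c - d c) * (clauseMap j r t).1 c := fun c => by
    rw [← hval, ← hval]; exact congrFun hst c
  have hchain : ∀ k : ℕ, s (j (i₀ - (Fin.ofNat m k))) = t (j (i₀ - Fin.ofNat m k)) := by
    intro k
    induction k with
    | zero =>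
      rw [show Fin.ofNat m 0 = 0 from by ext; simp, sub_zero]
      simpa [h] using hst' (j i₀)
    | succ k ih =>
      have hs := hst' (j (i₀ - Fin.ofNat m (k + 1)))
      have e : i₀ - Fin.ofNat m (k + 1) + 1 = i₀ - Fin.ofNat m k := by
        have : Fin.ofNat m (k + 1) = Fin.ofNat m k + 1 := by ext; simp [Fin.val_add]
        rw [this]; abel
      rw [clauseMap_fst hj, clauseMap_fst hj, e, ih] at hs
      exact add_right_cancel hs
  funext c
  by_cases hc : ∃ i, j i = c
  · obtain ⟨i, rfl⟩ := hc
    have := hchain (i₀ - i).val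
    rwa [show Fin.ofNat m (i₀ - i).val = i₀ - i from Fin.ext (Nat.mod_eq_of_lt (i₀ - i).2),
      sub_sub_cancel] at this
  · have := hst' c
    simpa [clauseMap, dif_neg hc] using this

lemma clauseMap_not_injective [∀ c, Nontrivial (ZMod (n c))] {m : ℕ} [NeZero m]
    {j : Fin m → C} (hj : Function.Injective j) (r d : Coord n)
    (h : ∀ i, d (j i) ≠ r (j i)) :
    ¬Function.Injective fun s => (clauseMap j r s).2 - d * (clauseMap j r s).1 := by
  classical
  intro hinj
  set t : Coord n := (r - d) * (clauseMap j r 0).1 with ht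
  have ht0 : ∀ i, t (j i) ≠ 0 := fun i => by
    simpa [ht, clauseMap_fst hj, sub_eq_zero] using (h i).symm
  have hu : (clauseMap j r t).1 = 0 := by
    funext c
    by_cases hc : ∃ i, j i = c
    · obtain ⟨i, rfl⟩ := hc
      rw [clauseMap_fst hj, if_neg (ht0 _)]; rfl
    · simp [clauseMap, dif_neg hc]
  have : t = 0 := hinj (by
    show (clauseMap j r t).2 - d * (clauseMap j r t).1
      = (clauseMap j r 0).2 - d * (clauseMap j r 0).1
    rw [show (clauseMap j r t).2 = t + r * (clauseMap j r t).1 from rfl,
      show (clauseMap j r 0).2 = 0 + r * (clauseMap j r 0).1 from rfl, hu]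
    simp only [ht, mul_zero, add_zero, sub_zero, zero_add]
    ring)
  exact ht0 0 (congrFun this _)

end Vale.Agent.P043
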