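import Mathlib

/-!
# An aperiodic three-direction puzzle

A value in `ZMod 25` records the unit part of an integer at its last nonzero digit
in base 5. Local compatibility of the values at `i`, `j`, `i + j` rules out periods.
-/

namespace Vale.Agent.P043

/-- Reduction `ZMod 25 → ZMod 5`. -/
def red : ZMod 25 →+* ZMod 5 := ZMod.castHom (by norm_num) (ZMod 5)

/-- The pairs (residue, unit part) at `t`, `t'`, `t + t'` are compatible. -/
def Compat (a b c : ZMod 25) : Prop :=
  a + b = c ∨ c = b ∨ c - b = 5 * a ∨ c = a ∨ c - a = 5 * b ∨ a + b = 0 ∨ a + b = 5 * c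

/-- The unit part of an integer, reduced modulo 25, with value `1` at `0`. -/
def unitPart (t : ℤ) : ZMod 25 :=
  if t = 0 then 1 else ((t / (5 : ℤ) ^ padicValInt 5 t : ℤ) : ZMod 25)

lemma pow_five_split {m r : ℕ} {x z : ℤ} (hx : ¬(5 : ℤ) ∣ x) (hz : ¬(5 : ℤ) ∣ z)
    (h : (5 : ℤ) ^ m * x = 5 ^ r * z) : m = r ∧ x = z := by
  rcases lt_trichotomy m r with hlt | heq | hlt
  · obtain ⟨k, rfl⟩ := Nat.exists_eq_add_of_lt hlt
    refine absurd ⟨5 ^ k * z, ?_⟩ hx
    apply mul_left_cancel₀ (pow_ne_zero m (by norm_num : (5 : ℤ) ≠ 0))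
    rw [h]; ring
  · subst heq
    exact ⟨rfl, mul_left_cancel₀ (pow_ne_zero m (by norm_num : (5 : ℤ) ≠ 0)) h⟩
  · obtain ⟨k, rfl⟩ := Nat.exists_eq_add_of_lt hlt
    refine absurd ⟨5 ^ k * x, ?_⟩ hz
    apply mul_left_cancel₀ (pow_ne_zero r (by norm_num : (5 : ℤ) ≠ 0))
    rw [← h]; ring

lemma exists_unitPart {t : ℤ} (ht : t ≠ 0) :
    ∃ m : ℕ, ∃ x : ℤ, ¬(5 : ℤ) ∣ x ∧ t = 5 ^ m * x ∧ unitPart t = x := by
  haveI : Fact (Nat.Prime 5) := ⟨by norm_num⟩
  obtain ⟨x, hx⟩ : (5 : ℤ) ^ padicValInt 5 t ∣ t := by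
    exact_mod_cast padicValInt_dvd (p := 5) t
  refine ⟨padicValInt 5 t, x, fun hd => ?_, hx, ?_⟩
  · have h1 : (5 : ℤ) ^ (padicValInt 5 t + 1) ∣ t := by
      rw [pow_succ]
      conv_rhs => rw [hx]
      exact mul_dvd_mul_left _ hd
    rcases (padicValInt_dvd_iff (p := 5) (padicValInt 5 t + 1) t).1 (by exact_mod_cast h1)
      with h | h
    · exact ht h
    · omega
  · rw [unitPart, if_neg ht]
    congr 1
    conv_lhs => arg 1; rw [hx]
    rw [Int.mul_ediv_cancel_left _ (pow_ne_zero _ (by norm_num : (5 : ℤ) ≠ 0))]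

lemma red_unitPart (t : ℤ) :
    red (unitPart t) ≠ 0 ∧ ((t : ZMod 5) ≠ 0 → red (unitPart t) = t) := by
  rcases eq_or_ne t 0 with rfl | ht
  · simp [unitPart, red]
    decide
  · obtain ⟨m, x, hx, rfl, h⟩ := exists_unitPart ht
    rw [h, map_intCast]
    refine ⟨fun h0 => hx ((ZMod.intCast_zmod_eq_zero_iff_dvd x 5).1 h0), fun hne => ?_⟩
    rcases m with _ | m
    · simp
    · exfalso; apply hne; push_cast
      rw [pow_succ, show (5 : ZMod 5) = 0 from rfl]; ring

lemma cast_five_pow {k : ℕ} (hk : 2 ≤ k) : ((5 : ℤ) ^ k : ℤ) = ((0 : ℤ) : ZMod 25) := by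
  obtain ⟨l, rfl⟩ := Nat.exists_eq_add_of_le hk
  rw [pow_add]; push_cast
  rw [show (25 : ZMod 25) = 0 from rfl, zero_mul]

lemma compat_of_lt {m k : ℕ} (hlt : m < k) {x y z : ℤ} {r : ℕ} (hx : ¬(5 : ℤ) ∣ x)
    (hz : ¬(5 : ℤ) ∣ z) (h : (5 : ℤ) ^ m * x + 5 ^ k * y = 5 ^ r * z) :
    (z : ZMod 25) - x = 5 * y ∨ (z : ZMod 25) = x := by
  obtain ⟨l, rfl⟩ := Nat.exists_eq_add_of_lt hlt
  have hx' : ¬(5 : ℤ) ∣ x + 5 ^ (l + 1) * y := by
    intro hd
    apply hx
    have : (5 : ℤ) ∣ 5 ^ (l + 1) * y := (dvd_pow_self 5 (Nat.succ_ne_zero l)).mul_right y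
    simpa using dvd_sub hd this
  obtain ⟨-, rfl⟩ := pow_five_split (m := m) (r := r) hx' hz (by rw [← h]; ring)
  rcases l with _ | l
  · left; push_cast; ring
  · right
    rw [Int.cast_add, Int.cast_mul, cast_five_pow (k := l + 1 + 1) (by omega)]
    simp

lemma compat_unitPart (i j : ℤ) : Compat (unitPart i) (unitPart j) (unitPart (i + j)) := by
  rcases eq_or_ne i 0 with rfl | hi
  · exact Or.inr (Or.inl (by simp))
  rcases eq_or_ne j 0 with rfl | hj
  · exact Or.inr (Or.inr (Or.inr (Or.inl (by simp))))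
  obtain ⟨m, x, hx, rfl, ha⟩ := exists_unitPart hi
  obtain ⟨k, y, hy, rfl, hb⟩ := exists_unitPart hj
  rw [ha, hb]
  rcases eq_or_ne ((5 : ℤ) ^ m * x + 5 ^ k * y) 0 with h0 | h0
  · obtain ⟨-, rfl⟩ := pow_five_split (m := m) (r := k) (z := -y) hx
      (by simpa using hy) (by linear_combination h0)
    exact Or.inr (Or.inr (Or.inr (Or.inr (Or.inr (Or.inl (by simp))))))
  obtain ⟨r, z, hz, hsum, hc⟩ := exists_unitPart h0
  rw [hc]
  rcases lt_trichotomy m k with hlt | rfl | hlt
  · rcases compat_of_lt hlt hx hz hsum with h | h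
    · exact Or.inr (Or.inr (Or.inr (Or.inr (Or.inl h))))
    · exact Or.inr (Or.inr (Or.inr (Or.inl h)))
  · rcases le_or_gt m r with hle | hgt
    · obtain ⟨l, rfl⟩ := Nat.exists_eq_add_of_le hle
      have hl : x + y = 5 ^ l * z :=
        mul_left_cancel₀ (pow_ne_zero m (by norm_num : (5 : ℤ) ≠ 0))
          (by rw [mul_add, hsum]; ring)
      have hl' : (x : ZMod 25) + y = (((5 : ℤ) ^ l : ℤ) : ZMod 25) * z := by
        exact_mod_cast congrArg (Int.cast : ℤ → ZMod 25) hl
      rcases l with _ | _ | l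
      · exact Or.inl (by simpa using hl')
      · exact Or.inr (Or.inr (Or.inr (Or.inr (Or.inr (Or.inr (by simpa using hl'))))))
      · rw [cast_five_pow (by omega), Int.cast_zero, zero_mul] at hl'
        exact Or.inr (Or.inr (Or.inr (Or.inr (Or.inr (Or.inl hl')))))
    · obtain ⟨l, rfl⟩ := Nat.exists_eq_add_of_lt hgt
      refine absurd ⟨5 ^ l * (x + y), ?_⟩ hz
      apply mul_left_cancel₀ (pow_ne_zero r (by norm_num : (5 : ℤ) ≠ 0))
      rw [← hsum]; ring
  · rcases compat_of_lt hlt hy hz (y := x) (by rw [← hsum]; ring) with h | h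
    · exact Or.inr (Or.inr (Or.inl h))
    · exact Or.inr (Or.inl h)

/-- The normalised data of one level of the puzzle. -/
structure Level (a b c : ℤ → ZMod 25) (s : ZMod 5) : Prop where
  slope_ne : s ≠ 0
  unit_a : ∀ i, red (a i) ≠ 0
  unit_b : ∀ i, red (b i) ≠ 0
  unit_c : ∀ i, red (c i) ≠ 0
  res_a : ∀ i : ℤ, (i : ZMod 5) ≠ 0 → red (a i) = s * i
  res_b : ∀ i : ℤ, (i : ZMod 5) ≠ 0 → red (b i) = s * i
  res_c : ∀ i : ℤ, (i : ZMod 5) ≠ 0 → red (c i) = s * i
  compat : ∀ i j, Compat (a i) (b j) (c (i + j))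

lemma red_five_cancel : ∀ x y : ZMod 25, 5 * x = 5 * y → red x = red y := by decide

lemma eq_five_mul_of_red : ∀ x : ZMod 25, red x = 0 → ∃ y, x = 5 * y := by decide

lemma red_five (x : ZMod 25) : red (5 * x) = 0 := by
  rw [map_mul, show red 5 = 0 from rfl, zero_mul]

variable {a b c : ℤ → ZMod 25} {s : ZMod 5}

lemma Level.add_eq (h : Level a b c s) {i j : ℤ} (hi : (i : ZMod 5) ≠ 0)
    (hj : (j : ZMod 5) ≠ 0) (hk : ((i + j : ℤ) : ZMod 5) ≠ 0) : a i + b j = c (i + j) := by
  haveI : Fact (Nat.Prime 5) := ⟨by norm_num⟩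
  have hA := h.res_a i hi
  have hB := h.res_b j hj
  have hC := h.res_c _ hk
  have ha := h.unit_a i
  have hb := h.unit_b j
  push_cast at hC hk
  rcases h.compat i j with e | e | e | e | e | e | e
  · exact e
  · exact absurd (by rw [e, hB] at hC; linear_combination hA - hC) ha
  · have := congrArg red e
    rw [map_sub, red_five] at this
    exact absurd (by linear_combination hA - hC + hB + this) ha
  · exact absurd (by rw [e, hA] at hC; linear_combination hB - hC) hb
  · have := congrArg red e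
    rw [map_sub, red_five] at this
    exact absurd (by linear_combination hB - hC + hA + this) hb
  · have := congrArg red e
    rw [map_add, map_zero, hA, hB, ← mul_add] at this
    exact absurd ((mul_eq_zero.1 this).resolve_left h.slope_ne) hk
  · have := congrArg red e
    rw [map_add, red_five, hA, hB, ← mul_add] at this
    exact absurd ((mul_eq_zero.1 this).resolve_left h.slope_ne) hk

lemma Level.swap (h : Level a b c s) : Level b a c s :=
  ⟨h.slope_ne, h.unit_b, h.unit_a, h.unit_c, h.res_b, h.res_a, h.res_c, fun i j => by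
    have := h.compat j i
    rw [add_comm j i] at this
    unfold Compat at this ⊢
    rw [add_comm (b i) (a j)]
    tauto⟩

lemma exists_third : ∀ x y : ZMod 5, ∃ k : Fin 4,
    ((k.1 : ℕ) : ZMod 5) ≠ 0 ∧ ((k.1 : ℕ) : ZMod 5) ≠ x ∧ ((k.1 : ℕ) : ZMod 5) ≠ y := by
  decide

lemma Level.diff_one (h : Level a b c s) {i : ℤ} (hi : (i : ZMod 5) ≠ 0)
    (hi' : ((i + 1 : ℤ) : ZMod 5) ≠ 0) {k : ℤ} (hk : (k : ZMod 5) ≠ 0)
    (hk' : ((k + 1 : ℤ) : ZMod 5) ≠ 0) (hne : (k : ZMod 5) ≠ i) :
    a (i + 1) - a i = c (k + 1) - c k := by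
  have hj : ((k - i : ℤ) : ZMod 5) ≠ 0 := by simpa [sub_eq_zero] using hne
  have h1 := h.add_eq hi hj (by simpa using hk)
  have h2 := h.add_eq hi' hj (by rwa [show i + 1 + (k - i) = k + 1 by ring])
  rw [show i + (k - i) = k by ring] at h1
  rw [show i + 1 + (k - i) = k + 1 by ring] at h2
  linear_combination h2 - h1

lemma Level.linear (h : Level a b c s) :
    ∀ i : ℤ, (i : ZMod 5) ≠ 0 → a i = a 1 + (c 3 - c 2) * ((i : ZMod 25) - 1) := by
  set β := c 3 - c 2 with hβ
  have n2 : ((2 : ℤ) : ZMod 5) ≠ 0 := by decide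
  have n3 : ((3 : ℤ) : ZMod 5) ≠ 0 := by decide
  have n4 : ((4 : ℤ) : ZMod 5) ≠ 0 := by decide
  have n1 : ((1 : ℤ) : ZMod 5) ≠ 0 := by decide
  -- all differences across one step equal `β`
  have ha1 : a (1 + 1) - a 1 = β := by
    rw [h.diff_one n1 n2 (k := 2) n2 n3 (by decide), hβ]; norm_num
  have ha3 : a (3 + 1) - a 3 = β := by
    rw [h.diff_one n3 n4 (k := 2) n2 n3 (by decide), hβ]; norm_num
  have hc3 : c (3 + 1) - c 3 = β := by
    rw [← h.diff_one n1 n2 (k := 3) n3 n4 (by decide)]; exact ha1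
  have hc2 : c (2 + 1) - c 2 = β := by norm_num [hβ]
  have hcgen : ∀ k : ℤ, (k : ZMod 5) ≠ 0 → ((k + 1 : ℤ) : ZMod 5) ≠ 0 →
      c (k + 1) - c k = β := by
    intro k hk hk'
    by_cases hk1 : (k : ZMod 5) = ((1 : ℤ) : ZMod 5)
    · rw [← h.diff_one n3 n4 hk hk' (by rw [hk1]; decide)]; exact ha3
    · rw [← h.diff_one n1 n2 hk hk' hk1]; exact ha1
  have hagen : ∀ i : ℤ, (i : ZMod 5) ≠ 0 → ((i + 1 : ℤ) : ZMod 5) ≠ 0 →
      a (i + 1) - a i = β := by
    intro i hi hi'
    by_cases hi2 : (i : ZMod 5) = ((2 : ℤ) : ZMod 5)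
    · rw [h.diff_one hi hi' n3 n4 (by rw [hi2]; decide)]; exact hc3
    · rw [h.diff_one hi hi' n2 n3 (Ne.symm hi2)]; exact hc2
  have hgap : ∀ i : ℤ, ((i + 1 : ℤ) : ZMod 5) = 0 → a (i + 2) - a i = 2 * β := by
    intro i hi
    push_cast at hi
    have hi4 : (i : ZMod 5) = 4 := by
      linear_combination (norm := ring_nf) hi
      decide
    have e1 : ((i + 2 : ℤ) : ZMod 5) = 1 := by push_cast; rw [hi4]; decide
    have e2 : ((i + (2 - i) : ℤ) : ZMod 5) = 2 := by push_cast; ring
    have e3 : ((2 - i : ℤ) : ZMod 5) = 3 := by push_cast; rw [hi4]; decide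
    have h1 := h.add_eq (i := i) (j := 2 - i) (by rw [hi4]; decide) (by rw [e3]; decide)
      (by rw [e2]; decide)
    have h2 := h.add_eq (i := i + 2) (j := 2 - i) (by rw [e1]; decide) (by rw [e3]; decide)
      (by rw [show i + 2 + (2 - i) = 4 by ring]; decide)
    rw [show i + (2 - i) = 2 by ring] at h1
    rw [show i + 2 + (2 - i) = 4 by ring] at h2
    norm_num at hc2 hc3
    linear_combination h2 - h1 + hc2 + hc3
  -- hence `a i - β * i` is constant away from multiples of five
  let G : ℤ → ZMod 25 := fun i =>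
    if (i : ZMod 5) = 0 then a (i - 1) - β * ((i : ZMod 25) - 1) else a i - β * i
  have hG : ∀ i, G (i + 1) = G i := by
    intro i
    by_cases h0 : (i : ZMod 5) = 0
    · have h1 : ((i + 1 : ℤ) : ZMod 5) ≠ 0 := by push_cast; rw [h0]; decide
      have := hgap (i - 1) (by simpa using h0)
      simp only [G, if_pos h0, if_neg h1]
      rw [show i - 1 + 2 = i + 1 by ring] at this
      push_cast
      linear_combination this
    · by_cases h1 : ((i + 1 : ℤ) : ZMod 5) = 0
      · simp only [G, if_pos h1, if_neg h0, add_sub_cancel_right]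
        push_cast; ring
      · have := hagen i h0 h1
        simp only [G, if_neg h0, if_neg h1]
        push_cast
        linear_combination this
  have hconst : ∀ i, G i = G 1 := by
    intro i
    induction i using Int.inductionOn' (b := 1) with
    | zero => rfl
    | succ k _ ih => rw [hG, ih]
    | pred k _ ih => rw [← hG (k - 1), sub_add_cancel, ih]
  intro i hi
  have := hconst i
  simp only [G, if_neg hi, if_neg n1] at this
  push_cast at this
  linear_combination this

lemma one_cast_ne : ((1 : ℤ) : ZMod 5) ≠ 0 := by decide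

lemma two_cast_ne : ((2 : ℤ) : ZMod 5) ≠ 0 := by decide

lemma Level.rotate (h : Level a b c s) : Level c (fun j => -b (-j)) a s := by
  refine ⟨h.slope_ne, h.unit_c, fun i => by simpa using h.unit_b (-i), h.unit_a, h.res_c,
    fun i hi => ?_, h.res_a, fun k j => ?_⟩
  · have := h.res_b (-i) (by simpa using hi)
    simp only [map_neg, this]
    push_cast; ring
  · have := h.compat (k + j) (-j)
    rw [add_neg_cancel_right] at this
    unfold Compat at this ⊢
    rcases this with e | e | e | e | e | e | e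
    · exact Or.inl (by linear_combination -e)
    · exact Or.inr (Or.inr (Or.inr (Or.inr (Or.inr (Or.inl (by linear_combination e))))))
    · exact Or.inr (Or.inr (Or.inr (Or.inr (Or.inr (Or.inr (by linear_combination e))))))
    · exact Or.inr (Or.inr (Or.inr (Or.inl e.symm)))
    · exact Or.inr (Or.inr (Or.inr (Or.inr (Or.inl (by linear_combination -e)))))
    · exact Or.inr (Or.inl (by linear_combination e))
    · exact Or.inr (Or.inr (Or.inl (by linear_combination e)))

lemma Level.next_res (h : Level a b c s) {α α' β : ZMod 25} (hβ : red β = s)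
    (hB : ∀ j : ℤ, (j : ZMod 5) ≠ 0 → b j = 5 * α' + β * j)
    (hC : ∀ k : ℤ, (k : ZMod 5) ≠ 0 → c k = 5 * (α + α') + β * k)
    (i : ℤ) (hne : red α + s * i ≠ 0) : red (a (5 * i)) = red α + s * i := by
  haveI : Fact (Nat.Prime 5) := ⟨by norm_num⟩
  obtain ⟨k, hk, hkx, hky⟩ := exists_third (red (a (5 * i)) / s) (-(red (a (5 * i)) / s))
  have hj : ((k.1 : ℤ) : ZMod 5) ≠ 0 := by simpa using hk
  have h5 : ((5 * i + k.1 : ℤ) : ZMod 5) = ((k.1 : ℤ) : ZMod 5) := by
    push_cast; rw [show (5 : ZMod 5) = 0 from rfl]; ring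
  have hb := h.res_b _ hj
  have hc := h.res_c (5 * i + k.1) (h5 ▸ hj)
  rw [h5] at hc
  have hua := h.unit_a (5 * i)
  have hdiff : c (5 * i + k.1) - b k.1 = 5 * (α + β * i) := by
    rw [hC _ (h5 ▸ hj), hB _ hj]; push_cast; ring
  have hγ : red (α + β * i) = red α + s * i := by
    rw [map_add, map_mul, map_intCast, hβ]
  have hne1 : red (a (5 * i)) ≠ s * ((k.1 : ℤ) : ZMod 5) := fun e => hkx (by
    rw [e, mul_div_cancel_left₀ _ h.slope_ne]; simp)
  have hne2 : red (a (5 * i)) + s * ((k.1 : ℤ) : ZMod 5) ≠ 0 := fun e => hky (by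
    rw [eq_neg_of_add_eq_zero_left e, neg_div, neg_neg,
      mul_div_cancel_left₀ _ h.slope_ne]; simp)
  rcases h.compat (5 * i) k.1 with e | e | e | e | e | e | e
  · have := congrArg red e
    rw [map_add, hb, hc] at this
    exact absurd (by linear_combination this) hua
  · rw [e, sub_self] at hdiff
    have := red_five_cancel 0 (α + β * i) (by rw [mul_zero]; exact hdiff)
    rw [map_zero, hγ] at this
    exact absurd this.symm hne
  · rw [red_five_cancel _ _ (e.symm.trans hdiff), hγ]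
  · have := congrArg red e
    rw [hc] at this
    exact absurd this.symm hne1
  · have := congrArg red e
    rw [map_sub, red_five, hc] at this
    exact absurd (sub_eq_zero.1 this).symm hne1
  · have := congrArg red e
    rw [map_add, map_zero, hb] at this
    exact absurd this hne2
  · have := congrArg red e
    rw [map_add, red_five, hb] at this
    exact absurd this hne2

lemma Level.next (h : Level a b c s) :
    ∃ p q : ℤ, Level (fun i => a (5 * (i + p))) (fun j => b (5 * (j + q)))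
      (fun k => c (5 * (k + (p + q)))) s := by
  haveI : Fact (Nat.Prime 5) := ⟨by norm_num⟩
  -- affine formulas on the nonzero classes
  set β := c 3 - c 2 with hβ
  have hA := h.linear
  have hB := h.swap.linear
  set A := a 1 - β with hAdef
  set B := b 1 - β with hBdef
  have hA' : ∀ i : ℤ, (i : ZMod 5) ≠ 0 → a i = A + β * i := fun i hi => by
    rw [hA i hi]; simp only [hAdef, hβ]; ring
  have hB' : ∀ i : ℤ, (i : ZMod 5) ≠ 0 → b i = B + β * i := fun i hi => by
    rw [hB i hi]; simp only [hBdef, hβ]; ring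
  have hC' : ∀ k : ℤ, (k : ZMod 5) ≠ 0 → c k = A + B + β * k := by
    intro k hk
    obtain ⟨i, hi0, hik, -⟩ := exists_third (k : ZMod 5) (k : ZMod 5)
    have hi : ((i.1 : ℤ) : ZMod 5) ≠ 0 := by simpa using hi0
    have hj : ((k - i.1 : ℤ) : ZMod 5) ≠ 0 := by
      simpa [sub_eq_zero] using Ne.symm hik
    have := h.add_eq hi hj (by simpa using hk)
    rw [hA' _ hi, hB' _ hj, show (i.1 : ℤ) + (k - i.1) = k by ring] at this
    rw [← this]; push_cast; ring
  have r1 : red A + red β = s := by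
    have := h.res_a 1 one_cast_ne
    rw [hA' 1 one_cast_ne] at this
    simpa using this
  have r2 : red A + red β * 2 = s * 2 := by
    have := h.res_a 2 two_cast_ne
    rw [hA' 2 two_cast_ne] at this
    simpa [map_add, map_mul, map_ofNat] using this
  have rβ : red β = s := by linear_combination r2 - r1
  have rB : red B + red β = s := by
    have := h.res_b 1 one_cast_ne
    rw [hB' 1 one_cast_ne] at this
    simpa using this
  obtain ⟨α, hα⟩ := eq_five_mul_of_red A (by linear_combination r1 - rβ)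
  obtain ⟨α', hα'⟩ := eq_five_mul_of_red B (by linear_combination rB - rβ)
  rw [hα, hα', ← mul_add] at hC'
  rw [hα] at hA'
  rw [hα'] at hB'
  -- recentre so that the new residues are `s * i`
  obtain ⟨p, hp⟩ := ZMod.intCast_surjective (-(red α / s))
  obtain ⟨q, hq⟩ := ZMod.intCast_surjective (-(red α' / s))
  have hp' : red α + s * (p : ZMod 5) = 0 := by
    rw [hp, mul_neg, mul_div_cancel₀ _ h.slope_ne, add_neg_cancel]
  have hq' : red α' + s * (q : ZMod 5) = 0 := by
    rw [hq, mul_neg, mul_div_cancel₀ _ h.slope_ne, add_neg_cancel]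
  refine ⟨p, q, h.slope_ne, fun i => h.unit_a _, fun i => h.unit_b _, fun i => h.unit_c _,
    fun i hi => ?_, fun i hi => ?_, fun i hi => ?_, fun i j => ?_⟩
  · rw [h.next_res rβ hB' hC' (i + p) (by
      push_cast; rw [mul_add, add_left_comm, hp', add_zero]
      exact mul_ne_zero h.slope_ne hi)]
    push_cast; linear_combination hp'
  · rw [h.swap.next_res rβ hA' (fun k hk => by rw [hC' k hk, add_comm α]) (i + q) (by
      push_cast; rw [mul_add, add_left_comm, hq', add_zero]
      exact mul_ne_zero h.slope_ne hi)]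
    push_cast; linear_combination hq'
  · rw [h.rotate.next_res (α := α + α') (α' := -α') rβ
      (fun j hj => by
        rw [hB' (-j) (by simpa using hj)]
        push_cast; ring)
      (fun k hk => by rw [hA' k hk]; ring) (i + (p + q)) (by
        rw [map_add]; push_cast
        intro e
        exact mul_ne_zero h.slope_ne hi (by linear_combination e - hp' - hq'))]
    rw [map_add]; push_cast; linear_combination hp' + hq'
  · convert h.compat (5 * (i + p)) (5 * (j + q)) using 2
    ring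

/-- No level is periodic. -/
lemma Level.not_periodic (P : ℕ) : ∀ {a b c : ℤ → ZMod 25} {s : ZMod 5}, Level a b c s →
    0 < P → ¬∀ i, a (i + P) = a i := by
  induction P using Nat.strong_induction_on with
  | _ P ih =>
  intro a b c s h hP hper
  haveI : Fact (Nat.Prime 5) := ⟨by norm_num⟩
  obtain ⟨k, hk, hk', -⟩ := exists_third (-(P : ZMod 5)) (-(P : ZMod 5))
  have hi : ((k.1 : ℤ) : ZMod 5) ≠ 0 := by simpa using hk
  have hi' : ((k.1 + P : ℤ) : ZMod 5) ≠ 0 := by
    push_cast
    exact fun e => hk' (eq_neg_of_add_eq_zero_left e)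
  have := h.res_a _ hi'
  rw [hper, h.res_a _ hi] at this
  have hP5 : (P : ZMod 5) = 0 := by
    have := mul_left_cancel₀ h.slope_ne this
    push_cast at this
    linear_combination -this
  obtain ⟨Q, rfl⟩ := (ZMod.natCast_eq_zero_iff P 5).1 hP5
  obtain ⟨p, q, h'⟩ := h.next
  refine ih Q (by omega) h' (by omega) fun i => ?_
  show a (5 * (i + Q + p)) = a (5 * (i + p))
  rw [← hper (5 * (i + p))]
  push_cast; ring_nf

/-- Residues adding up along three directions, not all constant, admit no period. -/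
theorem puzzle_not_periodic (Ca Cb Cc : ℤ → ZMod 5) (a b c : ℤ → ZMod 25)
    (hsum : ∀ i j, Ca i + Cb j = Cc (i + j)) (hnc : ∃ i, Ca i ≠ Ca 0)
    (hua : ∀ i, red (a i) ≠ 0 ∧ (Ca i ≠ 0 → red (a i) = Ca i))
    (hub : ∀ i, red (b i) ≠ 0 ∧ (Cb i ≠ 0 → red (b i) = Cb i))
    (huc : ∀ i, red (c i) ≠ 0 ∧ (Cc i ≠ 0 → red (c i) = Cc i))
    (hco : ∀ i j, Compat (a i) (b j) (c (i + j)))
    (P : ℕ) (hP : 0 < P) : ¬∀ i, a (i + P) = a i := by
  haveI : Fact (Nat.Prime 5) := ⟨by norm_num⟩
  set s := Ca 1 - Ca 0 with hs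
  have hCc : ∀ k, Cc (k + 1) - Cc k = s := by
    intro k
    have h1 := hsum 0 k
    have h2 := hsum 1 k
    rw [zero_add] at h1
    rw [add_comm 1 k] at h2
    linear_combination h1 - h2
  have hlin : ∀ f : ℤ → ZMod 5, (∀ i, f (i + 1) - f i = s) → ∀ i, f i = f 0 + s * i := by
    intro f hf i
    induction i using Int.inductionOn' (b := 0) with
    | zero => simp
    | succ k _ ih => push_cast; linear_combination hf k + ih
    | pred k _ ih =>
      have := hf (k - 1)
      rw [sub_add_cancel] at this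
      push_cast; linear_combination ih - this
  have hA := hlin Ca fun i => by
    have h1 := hsum i 0
    have h2 := hsum (i + 1) 0
    rw [add_zero] at h1 h2
    linear_combination h2 - h1 + hCc i
  have hB := hlin Cb fun j => by
    have h1 := hsum 0 j
    have h2 := hsum 0 (j + 1)
    rw [zero_add] at h1 h2
    linear_combination h2 - h1 + hCc j
  have hC := hlin Cc hCc
  have hC0 : Cc 0 = Ca 0 + Cb 0 := by simpa using (hsum 0 0).symm
  have hs0 : s ≠ 0 := fun h => by
    obtain ⟨i, hi⟩ := hnc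
    exact hi (by rw [hA i, h]; ring)
  obtain ⟨p, hp⟩ := ZMod.intCast_surjective (-(Ca 0 / s))
  obtain ⟨q, hq⟩ := ZMod.intCast_surjective (-(Cb 0 / s))
  have hp' : Ca 0 + s * (p : ZMod 5) = 0 := by
    rw [hp, mul_neg, mul_div_cancel₀ _ hs0, add_neg_cancel]
  have hq' : Cb 0 + s * (q : ZMod 5) = 0 := by
    rw [hq, mul_neg, mul_div_cancel₀ _ hs0, add_neg_cancel]
  have hres : ∀ (f : ℤ → ZMod 5) (u : ℤ → ZMod 25) (o : ℤ),
      (∀ i, red (u i) ≠ 0 ∧ (f i ≠ 0 → red (u i) = f i)) → (∀ i : ℤ, f (i + o) = s * i) →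
      ∀ i : ℤ, (i : ZMod 5) ≠ 0 → red (u (i + o)) = s * i := by
    intro f u o hu hf i hi
    rw [(hu (i + o)).2 (by rw [hf]; exact mul_ne_zero hs0 hi), hf]
  have h : Level (fun i => a (i + p)) (fun j => b (j + q)) (fun k => c (k + (p + q))) s :=
    ⟨hs0, fun i => (hua _).1, fun i => (hub _).1, fun i => (huc _).1,
      hres Ca a p hua (fun i => by rw [hA]; push_cast; linear_combination hp'),
      hres Cb b q hub (fun i => by rw [hB]; push_cast; linear_combination hq'),
      hres Cc c (p + q) huc (fun i => by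
        rw [hC, hC0]; push_cast; linear_combination hp' + hq'),
      fun i j => by
        convert hco (i + p) (j + q) using 2
        ring⟩
  exact fun hper => h.not_periodic P hP fun i => by
    show a (i + P + p) = a (i + p)
    rw [add_right_comm, hper]

end Vale.Agent.P043
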