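import Mathlib

/-!
# The thirty-piece window

Thirty pieces must fill five blocks, six in each block, and all six pieces of a block
must have the same shape. Two shapes with fifteen pieces each, or three with ten each,
cannot do this, but two colours of residues mixed as 2 + 3 can.
-/

namespace Vale.Agent.P043

/-- The shape class of piece `m` in colour `false`. -/
def classZero (m : ZMod 6) : ℕ := m.val % 2 + 1

/-- The shape class of piece `m` in colour `true`. -/
def classOne (m : ZMod 6) : ℕ := m.val % 3 + 1

/-- The shape class of piece `m` in a given colour. -/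
def classOf (l : Bool) (m : ZMod 6) : ℕ := if l then classOne m else classZero m

lemma classOf_range (l : Bool) (m : ZMod 6) : 1 ≤ classOf l m ∧ classOf l m ≤ 3 := by
  unfold classOf classOne classZero
  split <;> omega

/-- The indicator of `{0, k}`. -/
def mark {p : ℕ} (k : ℕ) (y : ZMod p) : ZMod 6 := if y = 0 ∨ y = k then 1 else 0

lemma mark_swap {p k k' : ℕ} (hk : (k : ZMod p) ≠ 0) (hk' : (k' : ZMod p) ≠ 0) (t : ZMod p) :
    mark k' (Equiv.swap (k : ZMod p) k' t) = mark k t := by
  unfold mark
  congr 1
  rw [Equiv.apply_eq_iff_eq_symm_apply, Equiv.apply_eq_iff_eq_symm_apply, Equiv.symm_swap,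
    Equiv.swap_apply_right, Equiv.swap_apply_of_ne_of_ne (Ne.symm hk) (Ne.symm hk')]

lemma shifted_pair_injective {p : ℕ} (hp : 6 < p) {k k' : ℕ} (hk : 1 ≤ k ∧ k ≤ 3)
    (hk' : 1 ≤ k' ∧ k' ≤ 3) {o o' : ZMod p}
    (h : ∀ y, mark k (y - o) = mark k' (y - o')) : k = k' := by
  have one_ne : (1 : ZMod 6) ≠ 0 := by decide
  have nz : ∀ a : ℕ, 1 ≤ a → a < p → (a : ZMod p) ≠ 0 := fun a h1 h2 e => by
    rw [ZMod.natCast_eq_zero_iff] at e
    have := Nat.le_of_dvd (by omega) e
    omega
  have h1 := h o
  have h2 := h (o + k)
  simp only [mark, sub_self, true_or, if_true, add_sub_cancel_left, or_true] at h1 h2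
  split_ifs at h1 with e1
  · split_ifs at h2 with e2
    · rcases e1 with e1 | e1 <;> rcases e2 with e2 | e2
      · exact absurd (by linear_combination e2 - e1) (nz k hk.1 (by omega))
      · have e : (k : ZMod p) = (k' : ZMod p) := by linear_combination e2 - e1
        rw [ZMod.natCast_eq_natCast_iff] at e
        exact e.eq_of_lt_of_lt (by omega) (by omega)
      · have e : ((k + k' : ℕ) : ZMod p) = 0 := by push_cast; linear_combination e2 - e1
        exact absurd e (nz _ (by omega) (by omega))
      · exact absurd (by linear_combination e2 - e1) (nz k hk.1 (by omega))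
    · exact absurd h2 one_ne
  · exact absurd h1 one_ne

/-- Six pieces sharing a block have the same shape. -/
theorem window_count {p : ℕ} (hp : 100 < p) (o5 : ZMod 5 × ZMod 6 → ZMod 5)
    (o6 : ZMod 5 × ZMod 6 → ZMod 6) (oL : ZMod 5 × ZMod 6 → ZMod p) (l : Bool)
    (h : ∀ y, Function.Bijective fun j => (o5 j, o6 j + mark (classOf l j.2) (y - oL j))) :
    False := by
  classical
  haveI : NeZero p := ⟨by omega⟩
  obtain ⟨y₀, hy₀⟩ : ∃ y : ZMod p, ∀ j, mark (classOf l j.2) (y - oL j) = 0 := by
    by_contra hne
    simp only [not_exists, not_forall] at hne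
    have hsub : (Finset.univ : Finset (ZMod p)) ⊆
        Finset.univ.image oL ∪
          Finset.univ.image fun j => oL j + (classOf l j.2 : ZMod p) := by
      intro y _
      obtain ⟨j, hj⟩ := hne y
      unfold mark at hj
      split_ifs at hj with e
      · rcases e with e | e
        · exact Finset.mem_union_left _ (Finset.mem_image.2
            ⟨j, Finset.mem_univ _, by linear_combination -e⟩)
        · exact Finset.mem_union_right _ (Finset.mem_image.2
            ⟨j, Finset.mem_univ _, by linear_combination -e⟩)
      · exact absurd rfl hj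
    have := (Finset.card_le_card hsub).trans (Finset.card_union_le _ _)
    have h30 := @Finset.card_image_le (ZMod 5 × ZMod 6) (ZMod p) Finset.univ oL _
    have h30' := @Finset.card_image_le (ZMod 5 × ZMod 6) (ZMod p) Finset.univ
      (fun j => oL j + (classOf l j.2 : ZMod p)) _
    simp only [Finset.card_univ, ZMod.card, Fintype.card_prod] at this h30 h30'
    omega
  have hb : Function.Bijective fun j => (o5 j, o6 j) := by simpa [hy₀] using h y₀
  let ψ := Equiv.ofBijective _ hb
  have hshift : ∀ y j, mark (classOf l j.2) (y - oL j) = 1 →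
      mark (classOf l (ψ.symm (o5 j, o6 j + 1)).2) (y - oL (ψ.symm (o5 j, o6 j + 1))) = 1 := by
    intro y j hj
    by_contra hi
    set i := ψ.symm (o5 j, o6 j + 1) with hidef
    have hi0 : mark (classOf l i.2) (y - oL i) = 0 := by
      unfold mark at hi ⊢; split_ifs at hi ⊢ <;> first | rfl | exact absurd rfl hi
    have hψ : (o5 i, o6 i) = (o5 j, o6 j + 1) := ψ.apply_symm_apply _
    have : i = j := (h y).injective (by simpa [hi0, hj] using hψ)
    rw [this] at hψ
    have e := congrArg Prod.snd hψ
    have : (1 : ZMod 6) = 0 := by simpa using e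
    exact absurd this (by decide)
  have hsame : ∀ i j, o5 i = o5 j → classOf l i.2 = classOf l j.2 := by
    have hmono : ∀ y i j, o5 i = o5 j → mark (classOf l j.2) (y - oL j) = 1 →
        mark (classOf l i.2) (y - oL i) = 1 := by
      intro y i j h5 hj
      have hn : ∀ n : ℕ, mark (classOf l (ψ.symm (o5 j, o6 j + n)).2)
          (y - oL (ψ.symm (o5 j, o6 j + n))) = 1 := by
        intro n
        induction n with
        | zero =>
          rw [Nat.cast_zero, add_zero, show ψ.symm (o5 j, o6 j) = j from ψ.symm_apply_apply j]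
          exact hj
        | succ n ih =>
          have := hshift y _ ih
          have hψ : (o5 (ψ.symm (o5 j, o6 j + n)), o6 (ψ.symm (o5 j, o6 j + n)))
              = (o5 j, o6 j + n) := ψ.apply_symm_apply _
          rw [Prod.mk.injEq] at hψ
          rw [hψ.1, hψ.2, add_assoc] at this
          rw [Nat.cast_succ]; exact this
      have := hn (o6 i - o6 j).val
      rw [ZMod.natCast_zmod_val, add_sub_cancel, ← h5,
        show ψ.symm (o5 i, o6 i) = i from ψ.symm_apply_apply i] at this
      exact this
    intro i j h5
    refine shifted_pair_injective (by omega) (classOf_range l i.2) (classOf_range l j.2)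
      (o := oL i) (o' := oL j) fun y => ?_
    have h01 : ∀ k (z : ZMod p), mark k z = 0 ∨ mark k z = 1 := fun k z => by
      unfold mark; split_ifs <;> simp
    rcases h01 (classOf l i.2) (y - oL i) with hi | hi <;>
      rcases h01 (classOf l j.2) (y - oL j) with hj | hj
    · rw [hi, hj]
    · rw [hmono y i j h5 hj, hj]
    · rw [hi, hmono y j i h5.symm hi]
    · rw [hi, hj]
  let K : ZMod 5 → ℕ := fun b => classOf l (ψ.symm (b, 0)).2
  have hcount : (Finset.univ.filter fun j : ZMod 5 × ZMod 6 => classOf l j.2 = 1).card
      = 6 * (Finset.univ.filter fun b => K b = 1).card := by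
    rw [show 6 * (Finset.univ.filter fun b => K b = 1).card
        = ((Finset.univ.filter fun b => K b = 1) ×ˢ (Finset.univ : Finset (ZMod 6))).card by
      rw [Finset.card_product, Finset.card_univ, ZMod.card, mul_comm]]
    refine Finset.card_equiv ψ fun j => ?_
    have : K (o5 j) = classOf l j.2 := hsame _ _ <| by
      have := congrArg Prod.fst (ψ.apply_symm_apply (o5 j, (0 : ZMod 6)))
      exact this
    simp [ψ, this]
  cases l
  · have : (Finset.univ.filter fun j : ZMod 5 × ZMod 6 => classOf false j.2 = 1).card = 15 := by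
      decide
    omega
  · have : (Finset.univ.filter fun j : ZMod 5 × ZMod 6 => classOf true j.2 = 1).card = 10 := by
      decide
    omega

/-- The colour of a residue. -/
def residueColour (i : ZMod 5) : Bool := decide (2 ≤ i.val)

/-- The block of the line at `(i, y)`. -/
def blockAt (i : ZMod 5) (y : ZMod 6) : ZMod 5 :=
  if residueColour i then ((2 + y.val % 3 : ℕ) : ZMod 5) else ((y.val % 2 : ℕ) : ZMod 5)

/-- The offset inside the block of the line at `(i, y)`. -/
def offsetAt (i : ZMod 5) (y : ZMod 6) : ZMod 6 :=
  if residueColour i then ((2 * (i.val - 2) + y.val / 3 : ℕ) : ZMod 6)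
  else ((3 * i.val + y.val / 2 : ℕ) : ZMod 6)

/-- In every window the six lines of one block share colour and shape. -/
theorem window_solution : ∀ X : ZMod 5 × ZMod 6,
    Function.Injective (fun j : ZMod 5 × ZMod 6 =>
      (blockAt (X.1 - j.1) (X.2 - j.2), offsetAt (X.1 - j.1) (X.2 - j.2))) ∧
    ∀ b : ZMod 5, ∃ l : Bool, ∃ k : Fin 4, ∀ j : ZMod 5 × ZMod 6,
      blockAt (X.1 - j.1) (X.2 - j.2) = b →
        residueColour (X.1 - j.1) = l ∧ classOf l j.2 = k.1 := by
  decide +kernel

end Vale.Agent.P043
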