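import Vale.Agent.P043.Combine
import Vale.Agent.P043.Lines
import Vale.Agent.P043.Puzzle
import Vale.Agent.P043.Window

/-!
# A finite system of tiling equations on `ℤ² × (ℤ/N)²` without periodic solution
-/

namespace Vale.Agent.P043

open Function

/-- A colour tuple: three encoded colours and one bit. -/
abbrev Tup := Fin 125 × Fin 125 × Fin 125 × Fin 2

/-- The components carried by large primes: four colours, and one bit for each tuple. -/
abbrev Big := Fin 4 ⊕ Tup

/-- All components. -/
abbrev Slot := Unit ⊕ (Unit ⊕ Big)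

/-- Distinct large primes for the big components. -/
noncomputable def bigPrime (b : Big) : ℕ :=
  ((Set.Infinite.natEmbedding {p : ℕ | p.Prime ∧ 20000 < p}
    (Set.infinite_of_forall_exists_gt fun a => by
      obtain ⟨p, hp, hpp⟩ := Nat.exists_infinite_primes (a + 20001)
      exact ⟨p, ⟨hpp, by omega⟩, by omega⟩)) (Fintype.equivFin Big b).val).1

lemma bigPrime_spec (b : Big) : (bigPrime b).Prime ∧ 20000 < bigPrime b := by
  unfold bigPrime
  exact (((Set.Infinite.natEmbedding {p : ℕ | p.Prime ∧ 20000 < p} _) _).2 : _)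

lemma bigPrime_injective : Injective bigPrime := fun a b h =>
  (Fintype.equivFin Big).injective (Fin.ext ((Set.Infinite.natEmbedding _ _).injective
    (Subtype.ext h)))

attribute [irreducible] bigPrime

/-- The modulus of a component. -/
noncomputable def modulus : Slot → ℕ :=
  Sum.elim (fun _ => 5) (Sum.elim (fun _ => 6) bigPrime)

instance (b : Big) : Fact (bigPrime b).Prime := ⟨(bigPrime_spec b).1⟩

instance modulus_neZero (c : Slot) : NeZero (modulus c) := by
  rcases c with _ | _ | b
  · exact ⟨by norm_num [modulus]⟩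
  · exact ⟨by norm_num [modulus]⟩
  · exact ⟨(bigPrime_spec b).1.ne_zero⟩

instance modulus_nontrivial (c : Slot) : Nontrivial (ZMod (modulus c)) := by
  haveI : Fact (1 < modulus c) := ⟨by
    rcases c with _ | _ | b
    · norm_num [modulus]
    · norm_num [modulus]
    · exact (bigPrime_spec b).1.one_lt⟩
  infer_instance

lemma modulus_coprime : Pairwise (Nat.Coprime on modulus) := by
  have big : ∀ b, Nat.Coprime (bigPrime b) 5 ∧ Nat.Coprime (bigPrime b) 6 := fun b => by
    obtain ⟨hp, hlt⟩ := bigPrime_spec b
    constructor <;> rw [hp.coprime_iff_not_dvd] <;> intro h <;>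
      have := Nat.le_of_dvd (by norm_num) h <;> omega
  intro c c' hne
  rcases c with _ | _ | b <;> rcases c' with _ | _ | b' <;>
    simp only [Function.onFun, modulus, Sum.elim_inl, Sum.elim_inr]
  · exact absurd rfl hne
  · norm_num
  · exact (big b').1.symm
  · norm_num
  · exact absurd rfl hne
  · exact (big b').2.symm
  · exact (big b).1
  · exact (big b).2
  · exact (Nat.coprime_primes (bigPrime_spec b).1 (bigPrime_spec b').1).2
      fun e => hne (by rw [bigPrime_injective e])

/-- The ring of all components. -/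
abbrev Ring₀ := Coord modulus

/-- Sites times fibre. -/
abbrev Space := (ℤ × ℤ) × (Ring₀ × Ring₀)

/-- The slot of the blocks. -/
abbrev five : Slot := Sum.inl ()

/-- The slot of the six offsets. -/
abbrev six : Slot := Sum.inr (Sum.inl ())

/-- The slot of colour `l`. -/
abbrev col (l : Fin 4) : Slot := Sum.inr (Sum.inr (Sum.inl l))

/-- The slot of the bit of a tuple. -/
abbrev bit (t : Tup) : Slot := Sum.inr (Sum.inr (Sum.inr t))

lemma five_ne_six : five ≠ six := Sum.inl_ne_inr
lemma five_ne_col (l : Fin 4) : five ≠ col l := Sum.inl_ne_inr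
lemma six_ne_col (l : Fin 4) : six ≠ col l := by simp
lemma bit_ne_col (t : Tup) (l : Fin 4) : bit t ≠ col l := by simp

/-- The number of slopes in use in a component. -/
def slopeCount : Slot → ℕ
  | Sum.inl _ => 1
  | Sum.inr (Sum.inl _) => 1
  | Sum.inr (Sum.inr (Sum.inl l)) => if l = 3 then 2 else 125
  | Sum.inr (Sum.inr (Sum.inr _)) => 2

/-- The allowed slopes. -/
noncomputable def slopes (c : Slot) : Finset (ZMod (modulus c)) :=
  (Finset.range (slopeCount c)).image Nat.cast

lemma slopes_sets : SlopeSets slopes := by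
  intro c
  rcases c with _ | _ | b
  · left; simp [slopes, slopeCount]
  · left; simp [slopes, slopeCount]
  · right
    obtain ⟨hp, hlt⟩ := bigPrime_spec b
    have hk : slopeCount (Sum.inr (Sum.inr b)) ≤ 125 ∧ 0 < slopeCount (Sum.inr (Sum.inr b)) := by
      rcases b with l | t <;> simp only [slopeCount] <;> (try split_ifs) <;> omega
    refine ⟨hp, ?_, ?_⟩
    · exact (Finset.nonempty_range_iff.2 (by omega)).image _
    · have hc : (slopes (Sum.inr (Sum.inr b))).card ≤ 125 :=
        le_trans Finset.card_image_le (by simpa using hk.1)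
      have : (slopes (Sum.inr (Sum.inr b))).card * ((slopes (Sum.inr (Sum.inr b))).card - 1)
          ≤ 125 * 125 := Nat.mul_le_mul hc (by omega)
      show _ < bigPrime b
      omega

lemma natCast_inj_big (b : Big) {i j : ℕ} (hi : i < 200) (hj : j < 200)
    (h : (i : ZMod (bigPrime b)) = j) : i = j := by
  rw [ZMod.natCast_eq_natCast_iff] at h
  have := (bigPrime_spec b).2
  exact h.eq_of_lt_of_lt (by omega) (by omega)

/-- The `l`-th entry of a tuple, as a number. -/
def Tup.entry (t : Tup) : Fin 4 → ℕ := ![t.1.1, t.2.1.1, t.2.2.1.1, t.2.2.2.1]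

/-- The residue of an encoded colour. -/
def colRes (i : Fin 125) : ZMod 5 := ((i.1 / 25 : ℕ) : ZMod 5)

/-- The unit part of an encoded colour. -/
def colUnit (i : Fin 125) : ZMod 25 := ((i.1 % 25 : ℕ) : ZMod 25)

/-- Encoding of a residue and a unit part. -/
def encode (r : ZMod 5) (u : ZMod 25) : Fin 125 :=
  ⟨r.val * 25 + u.val, by have := r.val_lt; have := u.val_lt; omega⟩

lemma colRes_encode (r : ZMod 5) (u : ZMod 25) : colRes (encode r u) = r := by
  have := u.val_lt
  simp only [colRes, encode]
  rw [show (r.val * 25 + u.val) / 25 = r.val by omega, ZMod.natCast_zmod_val]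

lemma colUnit_encode (r : ZMod 5) (u : ZMod 25) : colUnit (encode r u) = u := by
  have := u.val_lt
  simp only [colUnit, encode]
  rw [show (r.val * 25 + u.val) % 25 = u.val by omega, ZMod.natCast_zmod_val]

/-- A residue compatible with a unit part. -/
def Fits (r : ZMod 5) (u : ZMod 25) : Prop := red u ≠ 0 ∧ (r ≠ 0 → red u = r)

/-- The admissible tuples. -/
def Good (t : Tup) : Prop :=
  colRes t.1 + colRes t.2.1 = colRes t.2.2.1 ∧
    Fits (colRes t.1) (colUnit t.1) ∧ Fits (colRes t.2.1) (colUnit t.2.1) ∧
    Fits (colRes t.2.2.1) (colUnit t.2.2.1) ∧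
    Compat (colUnit t.1) (colUnit t.2.1) (colUnit t.2.2.1) ∧
    t.2.2.2 = if residueColour (colRes t.1) then 1 else 0

/-- The tuple at a site in the intended solution. -/
def tupleAt (x : ℤ × ℤ) : Tup :=
  (encode x.1 (unitPart x.1), encode x.2 (unitPart x.2),
    encode (x.1 + x.2 : ℤ) (unitPart (x.1 + x.2)),
    if residueColour (x.1 : ZMod 5) then 1 else 0)

lemma good_tupleAt (x : ℤ × ℤ) : Good (tupleAt x) := by
  simp only [Good, tupleAt, colRes_encode, colUnit_encode, Fits]
  exact ⟨by push_cast; rfl, red_unitPart _, red_unitPart _, red_unitPart _,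
    compat_unitPart _ _, trivial⟩

/-- The finite type of admissible tuples. -/
def GoodTup := {t : Tup // Good t}

noncomputable instance : Fintype GoodTup := by
  unfold GoodTup; classical exact inferInstance

instance : NeZero (Fintype.card GoodTup) :=
  ⟨(@Fintype.card_pos _ _ ⟨⟨_, good_tupleAt 0⟩⟩).ne'⟩

/-- The bit slots, enumerated. -/
noncomputable def goodBit (i : Fin (Fintype.card GoodTup)) : Slot :=
  bit ((Fintype.equivFin GoodTup).symm i).1

lemma goodBit_injective : Injective goodBit := fun i j h =>
  (Fintype.equivFin GoodTup).symm.injective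
    (Subtype.ext (Sum.inr.inj (Sum.inr.inj (Sum.inr.inj h))))

/-- The two slots of an implication. -/
def implSlot (t : Tup) (l : Fin 4) : Fin 2 → Slot := ![bit t, col l]

lemma implSlot_injective (t : Tup) (l : Fin 4) : Injective (implSlot t l) := by
  intro i j h
  fin_cases i <;> fin_cases j <;> simp_all [implSlot]

/-- The reference slopes of an implication. -/
noncomputable def implRef (t : Tup) (l : Fin 4) : Ring₀ :=
  update 0 (col l) (Tup.entry t l : ZMod (modulus (col l)))

/-- The shift along which colour `l` is invariant. -/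
def invShift : Fin 3 → ℤ × ℤ := ![(0, 1), (1, 0), (1, -1)]

/-- The family forcing invariance of one colour. -/
noncomputable def shiftMap (l : Fin 3) (s : Ring₀) : Space :=
  ((if s (col l.castSucc) = 0 then invShift l else 0), (0, s))

/-- The shear of piece `m` of the window. -/
noncomputable def pieceSwap (m : ZMod 6) :
    ZMod (modulus (col 3)) ≃ ZMod (modulus (col 3)) :=
  Equiv.swap (classZero m : ZMod (modulus (col 3))) (classOne m)

/-- The shape indicator, valued in the component of the offsets. -/
def mark6 {p : ℕ} (k : ℕ) (y : ZMod p) : ZMod (modulus six) := (mark k y : ZMod 6)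

/-- The block table, valued in the component of the blocks. -/
def blk (x : ℤ × ℤ) : ZMod (modulus five) :=
  (blockAt (x.1 : ZMod 5) (x.2 : ZMod 6) : ZMod 5)

/-- The offset table, valued in the component of the offsets. -/
def ofs (x : ℤ × ℤ) : ZMod (modulus six) :=
  (offsetAt (x.1 : ZMod 5) (x.2 : ZMod 6) : ZMod 6)

/-- The window family. -/
noncomputable def windowMap (s : Ring₀) : Space :=
  ((((s five).val : ℤ), ((s six).val : ℤ)),
    (update 0 (col 3) (s (col 3) - pieceSwap (s six) (s (col 3))),
      update (update s five 0) six (mark6 (classZero (s six)) (s (col 3)))))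

/-- A family inside one fibre. -/
def inFibre (e : Ring₀ → Ring₀ × Ring₀) (s : Ring₀) : Space := (0, e s)

/-- The vertical family. -/
noncomputable def vertical (s : Ring₀) : Ring₀ × Ring₀ := (0, s)

open Classical in
/-- A separating family, for forbidden differences. -/
noncomputable def sepMap (q : (Ring₀ × Ring₀) × Slot) : Ring₀ → Ring₀ × Ring₀ :=
  if h : ∀ d ∈ slopes q.2, q.1.2 q.2 ≠ d * q.1.1 q.2 then
    (exists_separating slopes_sets q.1 q.2 h).choose
  else vertical

/-- The index type of the system. -/
abbrev Index := Unit ⊕ (((Ring₀ × Ring₀) × Slot) ⊕ (Fin 3 ⊕ ((Tup × Fin 4) ⊕ (Unit ⊕ Unit))))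

/-- The system. -/
noncomputable def system : Index → Ring₀ → Space :=
  Sum.elim (fun _ => inFibre vertical) <|
  Sum.elim (fun q => inFibre (sepMap q)) <|
  Sum.elim shiftMap <|
  Sum.elim (fun q => inFibre (clauseMap (implSlot q.1 q.2) (implRef q.1 q.2))) <|
  Sum.elim (fun _ => inFibre (clauseMap goodBit 1)) (fun _ => windowMap)

lemma tilesBy_inFibre {A : Set Space} {e : Ring₀ → Ring₀ × Ring₀} :
    TilesBy A (inFibre e) ↔ ∀ x z, ∃! s, z - e s ∈ {p | (x, p) ∈ A} := by
  constructor
  · intro h x z
    simpa [inFibre, Prod.mk_sub_mk] using h (x, z)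
  · rintro h ⟨x, z⟩
    simpa [inFibre, Prod.mk_sub_mk] using h x z

/-- Membership of a window translate, componentwise. -/
lemma window_mem_iff {A : Set Space} {d o : ℤ × ℤ → Ring₀}
    (hA : ∀ x u g, (x, (u, g)) ∈ A ↔ g = o x + d x * u)
    (hd5 : ∀ x, d x five = 0) (hd6 : ∀ x, d x six = 0) (L : ℤ × ℤ → Bool)
    (hL : ∀ x, d x (col 3) = ((if L x then 1 else 0 : ℕ) : ZMod (modulus (col 3))))
    (z : Space) (s : Ring₀) :
    let y := z.1 - (((s five).val : ℤ), ((s six).val : ℤ))
    let k := classOf (L y) (s six)
    let w := z.2.2 (col 3) - o y (col 3) - d y (col 3) * z.2.1 (col 3)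
    z - windowMap s ∈ A ↔ o y five = z.2.2 five ∧ o y six + mark6 k w = z.2.2 six ∧
      s (col 3) = (if L y then (pieceSwap (s six)).symm w else w) ∧
      ∀ c, c ≠ five → c ≠ six → c ≠ col 3 → s c = z.2.2 c - o y c - d y c * z.2.1 c := by
  intro y k w
  obtain ⟨x, u, g⟩ := z
  simp only [windowMap, Prod.mk_sub_mk, hA]
  rw [show x - (((s five).val : ℤ), ((s six).val : ℤ)) = y from rfl]
  clear_value y
  rw [funext_iff]
  have hp := (bigPrime_spec (Sum.inl 3)).2
  have hk0 : ∀ n : ℕ, 1 ≤ n → n ≤ 3 → (n : ZMod (modulus (col 3))) ≠ 0 := fun n h1 h2 e => by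
    rw [← Nat.cast_zero] at e
    have := natCast_inj_big _ (by omega) (by omega) e
    omega
  have hmark : ∀ t : ZMod (modulus (col 3)),
      t = (if L y then (pieceSwap (s six)).symm w else w) →
        mark6 (classZero (s six)) t = mark6 k w := by
    intro t ht
    simp only [k, classOf]
    cases hLy : L y
    · subst t; simp [hLy, classZero, classOf]
    · simp only [hLy, if_true] at ht ⊢
      have := mark_swap (k := classZero (s six)) (k' := classOne (s six))
        (hk0 _ (classOf_range false (s six)).1 (classOf_range false (s six)).2)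
        (hk0 _ (classOf_range true (s six)).1 (classOf_range true (s six)).2) t
      simp only [mark6]
      rw [← this, ht]; simp [pieceSwap]; rfl
  have hlam : (g (col 3) - s (col 3) = o y (col 3) + d y (col 3) *
      (u (col 3) - (s (col 3) - pieceSwap (s six) (s (col 3))))) ↔
      s (col 3) = (if L y then (pieceSwap (s six)).symm w else w) := by
    rw [hL y]
    cases hLy : L y
    · simp only [w, hL y, hLy, Bool.false_eq_true, if_false, Nat.cast_zero, zero_mul, sub_zero,
        add_zero]
      constructor <;> intro h <;> linear_combination -h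
    · simp only [w, hL y, hLy, if_true, Nat.cast_one, one_mul, Equiv.eq_symm_apply]
      constructor <;> intro h <;> linear_combination -h
  constructor
  · intro h
    have ht : _ := hlam.1 (by simpa [(five_ne_col 3).symm, (six_ne_col 3).symm] using h (col 3))
    refine ⟨?_, ?_, ht, fun c h1 h2 h3 => ?_⟩
    · have := h five
      simp [hd5, five_ne_six] at this; exact this.symm
    · have := h six
      simp [hd6, hmark _ ht, five_ne_six.symm, six_ne_col] at this
      linear_combination -this
    · have := h c
      simp [h1, h2, h3] at this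
      linear_combination -this
  · rintro ⟨h5, h6, ht, hrest⟩ c
    by_cases h1 : c = five
    · subst h1; simp [hd5, five_ne_six]; exact h5.symm
    by_cases h2 : c = six
    · subst h2; simp [hd6, hmark _ ht, five_ne_six.symm, six_ne_col]; linear_combination -h6
    by_cases h3 : c = col 3
    · subst h3; simpa [(five_ne_col 3).symm, (six_ne_col 3).symm] using hlam.2 ht
    · simp [h1, h2, h3, hrest c h1 h2 h3]; ring

/-- Unique solvability in the window amounts to unique solvability for the pieces. -/
lemma window_tiles_iff {A : Set Space} {d o : ℤ × ℤ → Ring₀}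
    (hA : ∀ x u g, (x, (u, g)) ∈ A ↔ g = o x + d x * u)
    (hd5 : ∀ x, d x five = 0) (hd6 : ∀ x, d x six = 0) (L : ℤ × ℤ → Bool)
    (hL : ∀ x, d x (col 3) = ((if L x then 1 else 0 : ℕ) : ZMod (modulus (col 3)))) :
    TilesBy A windowMap ↔ ∀ z : Space, ∃! j : ZMod (modulus five) × ZMod (modulus six),
      let y := z.1 - ((j.1.val : ℤ), (j.2.val : ℤ))
      o y five = z.2.2 five ∧ o y six + mark6 (classOf (L y) j.2)
        (z.2.2 (col 3) - o y (col 3) - d y (col 3) * z.2.1 (col 3)) = z.2.2 six := by
  have key := window_mem_iff hA hd5 hd6 L hL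
  refine forall_congr' fun z => ?_
  let mk : ZMod (modulus five) × ZMod (modulus six) → Ring₀ := fun j =>
    let y := z.1 - ((j.1.val : ℤ), (j.2.val : ℤ))
    let w := z.2.2 (col 3) - o y (col 3) - d y (col 3) * z.2.1 (col 3)
    update (update (update (fun c => z.2.2 c - o y c - d y c * z.2.1 c) five j.1) six j.2)
      (col 3) (if L y then (pieceSwap j.2).symm w else w)
  have mk5 : ∀ j, mk j five = j.1 := fun j => by simp [mk, five_ne_six, five_ne_six.symm, five_ne_col, six_ne_col]
  have mk6 : ∀ j, mk j six = j.2 := fun j => by simp [mk, five_ne_six, five_ne_six.symm, five_ne_col, six_ne_col]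
  have mk_ok : ∀ j : ZMod (modulus five) × ZMod (modulus six),
      (let y := z.1 - ((j.1.val : ℤ), (j.2.val : ℤ))
       o y five = z.2.2 five ∧ o y six + mark6 (classOf (L y) j.2)
        (z.2.2 (col 3) - o y (col 3) - d y (col 3) * z.2.1 (col 3)) = z.2.2 six) →
      z - windowMap (mk j) ∈ A := fun j hj => by
    refine (key z (mk j)).2 ?_
    simp only [mk5, mk6]
    exact ⟨hj.1, hj.2, by simp [mk], fun c h1 h2 h3 => by simp [mk, h1, h2, h3]⟩
  constructor
  · rintro ⟨s, hs, hu⟩
    obtain ⟨h5, h6, -, -⟩ := (key z s).1 hs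
    refine ⟨(s five, s six), ⟨h5, h6⟩, fun j hj => ?_⟩
    have := hu (mk j) (mk_ok j hj)
    rw [← this]
    exact Prod.ext (mk5 j).symm (mk6 j).symm
  · rintro ⟨j, hj, hu⟩
    refine ⟨mk j, mk_ok j hj, fun s hs => ?_⟩
    obtain ⟨h5, h6, ht, hrest⟩ := (key z s).1 hs
    have hsj : (s five, s six) = j := hu (s five, s six) ⟨h5, h6⟩
    subst hsj
    funext c
    by_cases h1 : c = five
    · subst h1; rw [mk5]
    by_cases h2 : c = six
    · subst h2; rw [mk6]
    by_cases h3 : c = col 3
    · subst h3; rw [ht]; simp [mk]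
    · rw [hrest c h1 h2 h3]; simp [mk, h1, h2, h3]

/-- The system has a solution. -/
theorem system_solvable : ∃ A : Set Space, ∀ k, TilesBy A (system k) := by
  classical
  let d : ℤ × ℤ → Ring₀ := fun x c => match c with
    | Sum.inl _ => 0
    | Sum.inr (Sum.inl _) => 0
    | Sum.inr (Sum.inr (Sum.inl l)) => (Tup.entry (tupleAt x) l : ℕ)
    | Sum.inr (Sum.inr (Sum.inr t)) => if t = tupleAt x then 1 else 0
  let o : ℤ × ℤ → Ring₀ := fun x =>
    update (update 0 five (blk x)) six (ofs x)
  let A : Set Space := {p | p.2.2 = o p.1 + d p.1 * p.2.1}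
  have hA : ∀ x u g, (x, (u, g)) ∈ A ↔ g = o x + d x * u := fun _ _ _ => Iff.rfl
  have hallow : ∀ x, Allowed slopes (d x) := by
    intro x c
    simp only [slopes, Finset.mem_image, Finset.mem_range]
    rcases c with _ | _ | l | t
    · exact ⟨0, by simp [slopeCount], by simp [d]⟩
    · exact ⟨0, by simp [slopeCount], by simp [d]⟩
    · refine ⟨_, ?_, rfl⟩
      fin_cases l <;> simp [slopeCount, Tup.entry]
      omega
    · refine ⟨if t = tupleAt x then 1 else 0, by simp [slopeCount]; split_ifs <;> omega, ?_⟩
      simp only [d]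
      split_ifs <;> simp
  refine ⟨A, ?_⟩
  rintro (_ | q | l | ⟨t, l⟩ | _ | _) <;> simp only [system, Sum.elim_inl, Sum.elim_inr]
  · refine tilesBy_inFibre.2 fun x => (tiles_line_iff (hA x) _).2 ?_
    simp only [vertical, mul_zero, sub_zero]
    exact bijective_id
  · refine tilesBy_inFibre.2 fun x => (tiles_line_iff (hA x) _).2 ?_
    unfold sepMap
    split_ifs with h
    · exact (exists_separating slopes_sets q.1 q.2 h).choose_spec.2.2 _ (hallow x)
    · simp only [vertical, mul_zero, sub_zero]
      exact bijective_id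
  · intro z
    obtain ⟨x, u, g⟩ := z
    have hinv : ∀ v, d (x - invShift l) (col l.castSucc) * v = d x (col l.castSucc) * v := by
      intro v
      congr 1
      simp only [d]
      fin_cases l <;>
        simp [invShift, tupleAt, Tup.entry, Prod.sub_def, sub_add_sub_cancel']
    have ho : ∀ y : ℤ × ℤ, o y (col l.castSucc) = 0 := fun y => by simp [o, (five_ne_col _).symm, (six_ne_col _).symm]
    let s : Ring₀ := if g (col l.castSucc) = o x (col l.castSucc) +
        d x (col l.castSucc) * u (col l.castSucc)
      then g - (o (x - invShift l) + d (x - invShift l) * u) else g - (o x + d x * u)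
    have hmem : ∀ s : Ring₀, (x, (u, g)) - shiftMap l s ∈ A ↔
        g - s = (if s (col l.castSucc) = 0 then o (x - invShift l) + d (x - invShift l) * u
          else o x + d x * u) := by
      intro s
      simp only [shiftMap]
      split_ifs <;> simp [Prod.mk_sub_mk, hA]
    have hs : (x, (u, g)) - shiftMap l s ∈ A := by
      rw [hmem]
      by_cases hg : g (col l.castSucc) = o x (col l.castSucc) +
          d x (col l.castSucc) * u (col l.castSucc)
      · have hs0 : s (col l.castSucc) = 0 := by
          simp only [s, if_pos hg, Pi.sub_apply, Pi.add_apply, Pi.mul_apply, hg, ho, hinv, sub_self]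
        rw [if_pos hs0]; simp only [s, if_pos hg, sub_sub_cancel]
      · have hs0 : s (col l.castSucc) ≠ 0 := by
          simp only [s, if_neg hg, Pi.sub_apply, Pi.add_apply, Pi.mul_apply, ne_eq, sub_eq_zero]
          exact hg
        rw [if_neg hs0]; simp only [s, if_neg hg, sub_sub_cancel]
    refine ⟨s, hs, fun t ht => ?_⟩
    simp only [hmem] at ht
    have ht' := congrFun ht (col l.castSucc)
    by_cases h1 : t (col l.castSucc) = 0
    · rw [if_pos h1] at ht ht'
      simp only [Pi.sub_apply, Pi.add_apply, Pi.mul_apply, h1, ho, hinv, sub_zero] at ht'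
      simp only [s, if_pos (show g (col l.castSucc) = o x (col l.castSucc) +
          d x (col l.castSucc) * u (col l.castSucc) by rw [ht', ho])]
      rw [← ht]; abel
    · rw [if_neg h1] at ht ht'
      simp only [Pi.sub_apply, Pi.add_apply, Pi.mul_apply] at ht'
      simp only [s, if_neg (show ¬(g (col l.castSucc) = o x (col l.castSucc) +
          d x (col l.castSucc) * u (col l.castSucc)) from
        fun e => h1 (by rw [← ht'] at e; linear_combination e))]
      rw [← ht]; abel
  · refine tilesBy_inFibre.2 fun x => (tiles_line_iff (hA x) _).2 ?_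
    by_cases ht : t = tupleAt x
    · subst ht
      refine clauseMap_bijective (implSlot_injective _ _) _ _ 1 ?_
      simp [implSlot, implRef, d]
    · refine clauseMap_bijective (implSlot_injective _ _) _ _ 0 ?_
      simp [implSlot, implRef, d, ht, bit_ne_col]
  · refine tilesBy_inFibre.2 fun x => (tiles_line_iff (hA x) _).2 ?_
    refine clauseMap_bijective goodBit_injective _ _
      (Fintype.equivFin GoodTup ⟨tupleAt x, good_tupleAt x⟩) ?_
    simp only [goodBit, d, Equiv.symm_apply_apply, Pi.one_apply]
    exact if_pos (congrArg Subtype.val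
      ((Fintype.equivFin GoodTup).symm_apply_apply ⟨tupleAt x, good_tupleAt x⟩))
  · rw [window_tiles_iff hA (fun _ => rfl) (fun _ => rfl)
      (fun x => residueColour (x.1 : ZMod 5)) (fun x => by
        simp only [d, Tup.entry, tupleAt]
        cases residueColour (x.1 : ZMod 5) <;> rfl)]
    intro z
    let X : ZMod 5 × ZMod 6 := ((z.1.1 : ZMod 5), (z.1.2 : ZMod 6))
    obtain ⟨hinj, hclass⟩ := window_solution X
    obtain ⟨l, k, hlk⟩ := hclass (z.2.2 five : ZMod 5)
    let w : ZMod (modulus (col 3)) :=
      z.2.2 (col 3) - ((if l then 1 else 0 : ℕ) : ZMod (modulus (col 3))) * z.2.1 (col 3)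
    have hsite : ∀ i : ZMod 5 × ZMod 6,
        ((z.1 - ((i.1.val : ℤ), (i.2.val : ℤ))).1 : ZMod 5) = X.1 - i.1 ∧
        ((z.1 - ((i.1.val : ℤ), (i.2.val : ℤ))).2 : ZMod 6) = X.2 - i.2 := fun i => by
      constructor
      · simp only [Prod.fst_sub, Int.cast_sub, Int.cast_natCast, ZMod.natCast_zmod_val, X]
      · simp only [Prod.snd_sub, Int.cast_sub, Int.cast_natCast, ZMod.natCast_zmod_val, X]
    have hblock : ∀ i : ZMod 5 × ZMod 6,
        (o (z.1 - ((i.1.val : ℤ), (i.2.val : ℤ))) five : ZMod 5) = blockAt (X.1 - i.1) (X.2 - i.2) ∧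
        (o (z.1 - ((i.1.val : ℤ), (i.2.val : ℤ))) six : ZMod 6) = offsetAt (X.1 - i.1) (X.2 - i.2) ∧
        o (z.1 - ((i.1.val : ℤ), (i.2.val : ℤ))) (col 3) = 0 := fun i => by
      refine ⟨?_, ?_, ?_⟩
      · have e : o (z.1 - ((i.1.val : ℤ), (i.2.val : ℤ))) five
            = blk (z.1 - ((i.1.val : ℤ), (i.2.val : ℤ))) := by
          simp [o, five_ne_six]
        rw [e, blk, (hsite i).1, (hsite i).2]
      · have e : o (z.1 - ((i.1.val : ℤ), (i.2.val : ℤ))) six
            = ofs (z.1 - ((i.1.val : ℤ), (i.2.val : ℤ))) := by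
          simp [o]
        rw [e, ofs, (hsite i).1, (hsite i).2]
      · simp [o, (five_ne_col 3).symm, (six_ne_col 3).symm]
    have hval : ∀ i : ZMod 5 × ZMod 6,
        blockAt (X.1 - i.1) (X.2 - i.2) = (z.2.2 five : ZMod 5) →
        (mark6 (classOf (residueColour ((z.1 - ((i.1.val : ℤ), (i.2.val : ℤ))).1 : ZMod 5)) i.2)
          (z.2.2 (col 3) - o (z.1 - ((i.1.val : ℤ), (i.2.val : ℤ))) (col 3) -
            d (z.1 - ((i.1.val : ℤ), (i.2.val : ℤ))) (col 3) * z.2.1 (col 3)) : ZMod 6)
          = mark6 k.1 w := by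
      intro i hi
      obtain ⟨h1, h2⟩ := hlk i hi
      have h3 : residueColour ((z.1 - ((i.1.val : ℤ), (i.2.val : ℤ))).1 : ZMod 5) = l := by
        rw [(hsite i).1]; exact h1
      have hd3 : d (z.1 - ((i.1.val : ℤ), (i.2.val : ℤ))) (col 3)
          = ((if l then 1 else 0 : ℕ) : ZMod (modulus (col 3))) := by
        simp only [d, Tup.entry, tupleAt, h3]
        cases l <;> rfl
      rw [h3, h2, (hblock i).2.2, hd3, sub_zero]
    obtain ⟨j, hj, hju⟩ := (Finite.injective_iff_bijective.1 hinj).existsUnique
      ((z.2.2 five : ZMod 5), (z.2.2 six : ZMod 6) - (mark6 k.1 w : ZMod 6))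
    obtain ⟨hj1, hj2⟩ := Prod.mk.inj hj
    refine ⟨j, ⟨?_, ?_⟩, fun i hi => ?_⟩
    · exact (hblock j).1.trans hj1
    · exact (congrArg₂ (fun s t : ZMod 6 => s + t) ((hblock j).2.1.trans hj2) (hval j hj1)).trans
        (sub_add_cancel _ _)
    · have h5 := (hblock i).1.symm.trans hi.1
      refine hju i (Prod.ext h5 ?_)
      exact eq_sub_of_add_eq
        ((congrArg₂ (fun s t : ZMod 6 => s + t) (hblock i).2.1 (hval i h5)).symm.trans hi.2)

/-- No solution of the system has a period in the first direction. -/
theorem system_not_periodic (A : Set Space) (hsys : ∀ k, TilesBy A (system k)) (P : ℕ)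
    (hP : 0 < P) : ¬∀ x p, (((x.1 + P, x.2) : ℤ × ℤ), p) ∈ A ↔ (x, p) ∈ A := by
  classical
  intro hper
  have hvert : TilesBy A (inFibre vertical) := hsys (Sum.inl ())
  have hsep : ∀ q, TilesBy A (inFibre (sepMap q)) := fun q => hsys (Sum.inr (Sum.inl q))
  have hline : ∀ x, ∃ d o, Allowed slopes d ∧
      ∀ u g, (x, (u, g)) ∈ A ↔ g = o + d * u := by
    intro x
    refine exists_line slopes_sets {p | (x, p) ∈ A} (tilesBy_inFibre.1 hvert x)
      fun v c₀ hv => ?_
    have hs := tilesBy_inFibre.1 (hsep (v, c₀)) x
    unfold sepMap at hs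
    simp only [dif_pos hv] at hs
    obtain ⟨h0, hv', -⟩ := (exists_separating slopes_sets v c₀ hv).choose_spec
    exact ⟨_, h0, hv', hs⟩
  choose d o hallow hA using hline
  have hslope : ∀ x c, ∃ i < slopeCount c, d x c = (i : ZMod (modulus c)) := fun x c => by
    have := hallow x c
    simp only [slopes, Finset.mem_image, Finset.mem_range] at this
    obtain ⟨i, hi, h⟩ := this
    exact ⟨i, hi, h.symm⟩
  have hd5 : ∀ x, d x five = 0 := fun x => by
    obtain ⟨i, hi, h⟩ := hslope x five
    simp only [slopeCount, Nat.lt_one_iff] at hi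
    simpa [hi] using h
  have hd6 : ∀ x, d x six = 0 := fun x => by
    obtain ⟨i, hi, h⟩ := hslope x six
    simp only [slopeCount, Nat.lt_one_iff] at hi
    simpa [hi] using h
  -- a good tuple at each site
  have htup : ∀ x, ∃ t : GoodTup, ∀ l, d x (col l) = (Tup.entry t.1 l : ℕ) := by
    intro x
    have hor := tilesBy_inFibre.1 (hsys (Sum.inr (Sum.inr (Sum.inr (Sum.inr (Sum.inl ())))))) x
    have hb := (tiles_line_iff (hA x) _).1 hor
    obtain ⟨i, hi⟩ : ∃ i, d x (goodBit i) = (1 : Ring₀) (goodBit i) := by
      by_contra hne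
      simp only [not_exists] at hne
      exact clauseMap_not_injective goodBit_injective _ _ hne hb.injective
    refine ⟨(Fintype.equivFin GoodTup).symm i, fun l => ?_⟩
    set t := ((Fintype.equivFin GoodTup).symm i).1
    have himp := tilesBy_inFibre.1
      (hsys (Sum.inr (Sum.inr (Sum.inr (Sum.inl (t, l)))))) x
    have hb' := (tiles_line_iff (hA x) _).1 himp
    by_contra hne
    refine clauseMap_not_injective (implSlot_injective t l) _ _ (fun k => ?_) hb'.injective
    fin_cases k
    · simp only [implSlot, implRef]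
      intro e
      have h1 : d x (bit t) = 1 := hi
      simp [h1, bit_ne_col] at e
    · simpa [implSlot, implRef] using hne
  choose t ht using htup
  have hentry : ∀ (t : Tup) l, Tup.entry t l < 200 := fun t l => by
    have := t.1.2; have := t.2.1.2; have := t.2.2.1.2; have := t.2.2.2.2
    fin_cases l <;> simp [Tup.entry] <;> omega
  have hdet : ∀ x y (l : Fin 4), d x (col l) = d y (col l) →
      Tup.entry (t x).1 l = Tup.entry (t y).1 l := fun x y l h => by
    rw [ht, ht] at h
    exact natCast_inj_big _ (hentry _ _) (hentry _ _) h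
  -- invariance of each colour
  have hinv : ∀ (l : Fin 3) x,
      Tup.entry (t (x - invShift l)).1 l.castSucc = Tup.entry (t x).1 l.castSucc := by
    intro l x
    have hf : ∀ u : Ring₀, (o (x - invShift l) + d (x - invShift l) * u) (col l.castSucc)
        = (o x + d x * u) (col l.castSucc) := by
      intro u
      let g : Ring₀ := update 0 (col l.castSucc) ((o x + d x * u) (col l.castSucc))
      obtain ⟨s, hs, -⟩ := hsys (Sum.inr (Sum.inr (Sum.inl l))) (x, (u, g))
      simp only [system, Sum.elim_inl, Sum.elim_inr, shiftMap] at hs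
      by_cases h0 : s (col l.castSucc) = 0
      · simp only [if_pos h0, Prod.mk_sub_mk, sub_zero, hA] at hs
        rw [← hs]; simp [g, h0]
      · exfalso
        simp only [if_neg h0, Prod.mk_sub_mk, sub_zero, hA] at hs
        have := congrFun hs (col l.castSucc)
        simp only [Pi.sub_apply, g, update_self] at this
        exact h0 (by linear_combination -this)
    refine hdet _ _ _ ?_
    have h0 := hf 0
    have h1 := hf 1
    simp only [mul_zero, add_zero, mul_one, Pi.add_apply] at h0 h1
    linear_combination h1 - h0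
  have hgen : ∀ (v : ℤ × ℤ) (f : ℤ × ℤ → ℕ), (∀ x, f (x - v) = f x) →
      ∀ (n : ℤ) x, f (x + n • v) = f x := by
    intro v f hf n
    induction n using Int.inductionOn' (b := 0) with
    | zero => simp
    | succ k _ ih =>
      intro x
      rw [add_zsmul, one_zsmul, ← add_assoc, ← hf, add_sub_cancel_right, ih]
    | pred k _ ih =>
      intro x
      rw [sub_zsmul, one_zsmul, ← sub_eq_add_neg, ← add_sub_assoc, hf, ih]
  let colA : ℤ → Fin 125 := fun i => (t (i, 0)).1.1
  let colB : ℤ → Fin 125 := fun j => (t (0, j)).1.2.1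
  let colC : ℤ → Fin 125 := fun k => (t (k, 0)).1.2.2.1
  have hAeq : ∀ x : ℤ × ℤ, (t x).1.1 = colA x.1 := fun x => by
    apply Fin.ext
    have := hgen _ (fun x => Tup.entry (t x).1 0) (hinv 0) x.2 (x.1, 0)
    simpa [invShift, Tup.entry, colA] using this
  have hBeq : ∀ x : ℤ × ℤ, (t x).1.2.1 = colB x.2 := fun x => by
    apply Fin.ext
    have := hgen _ (fun x => Tup.entry (t x).1 1) (hinv 1) x.1 (0, x.2)
    simpa [invShift, Tup.entry, colB] using this
  have hCeq : ∀ x : ℤ × ℤ, (t x).1.2.2.1 = colC (x.1 + x.2) := fun x => by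
    apply Fin.ext
    have := hgen _ (fun x => Tup.entry (t x).1 2) (hinv 2) (-x.2) (x.1 + x.2, 0)
    simpa [invShift, Tup.entry, colC] using this
  have hgood : ∀ i j, Good (t (i, j)).1 := fun i j => (t (i, j)).2
  have hperA : ∀ i, colA (i + P) = colA i := by
    intro i
    apply Fin.ext
    refine hdet (i + P, 0) (i, 0) 0 ?_
    have hsame : ∀ u, o (i + P, 0) + d (i + P, 0) * u = o (i, 0) + d (i, 0) * u := fun u =>
      ((hA (i, 0) u _).1 ((hper (i, 0) _).1 ((hA (i + P, 0) u _).2 rfl)))
    have h0 := congrFun (hsame 0) (col 0)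
    have h1 := congrFun (hsame 1) (col 0)
    simp only [mul_zero, add_zero, mul_one, Pi.add_apply] at h0 h1
    linear_combination h1 - h0
  refine puzzle_not_periodic (fun i => colRes (colA i)) (fun j => colRes (colB j))
    (fun k => colRes (colC k)) (fun i => colUnit (colA i)) (fun j => colUnit (colB j))
    (fun k => colUnit (colC k)) (fun i j => ?_) ?_ (fun i => ?_) (fun j => ?_) (fun k => ?_)
    (fun i j => ?_) P hP (fun i => by simp only [hperA])
  · have := (hgood i j).1
    simpa [hAeq, hBeq, hCeq] using this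
  · -- the window forbids a constant residue
    by_contra hne
    simp only [not_exists, not_not] at hne
    set l := residueColour (colRes (colA 0)) with hl
    have hL : ∀ x, d x (col 3) = ((if l then 1 else 0 : ℕ) : ZMod (modulus (col 3))) := by
      intro x
      rw [ht x 3]
      have h := (t x).2.2.2.2.2.2
      rw [hAeq, hne, ← hl] at h
      simp only [Tup.entry, Matrix.cons_val, h]
      cases l <;> rfl
    have hw := (window_tiles_iff hA hd5 hd6 (fun _ => l) hL).1
      (hsys (Sum.inr (Sum.inr (Sum.inr (Sum.inr (Sum.inr ()))))))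
    refine window_count (p := modulus (col 3))
      (by have := (bigPrime_spec (Sum.inl 3)).2; simp only [modulus, Sum.elim_inr]; omega)
      (fun j => o (-(j.1.val : ℤ), -(j.2.val : ℤ)) five)
      (fun j => o (-(j.1.val : ℤ), -(j.2.val : ℤ)) six)
      (fun j => o (-(j.1.val : ℤ), -(j.2.val : ℤ)) (col 3)) l fun y => ?_
    rw [Function.bijective_iff_existsUnique]
    rintro ⟨b, v⟩
    refine (existsUnique_congr fun j => ?_).1
      (hw ((0, 0), (0, update (update (update 0 five b) six v) (col 3) y)))
    simp [five_ne_six, five_ne_six.symm, five_ne_col, six_ne_col, (five_ne_col 3).symm,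
      (six_ne_col 3).symm, -ZMod.natCast_val, -Prod.mk.injEq]
    rw [show update (update (0 : Ring₀) five b) six v five = b from
        (update_of_ne five_ne_six _ _).trans (update_self _ _ _),
      show update (update (0 : Ring₀) five b) six v six = v from update_self _ _ _]
    exact ⟨fun h => Prod.ext h.1 h.2, fun h => ⟨(Prod.mk.inj h).1, (Prod.mk.inj h).2⟩⟩
  · have := (hgood i 0).2.1
    simpa [hAeq, Fits] using this
  · have := (hgood 0 j).2.2.1
    simpa [hBeq, Fits] using this
  · have := (hgood k 0).2.2.2.1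
    simpa [hCeq, Fits] using this
  · have := (hgood i j).2.2.2.2.1
    simpa [hAeq, hBeq, hCeq] using this

end Vale.Agent.P043
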